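import Crest.Agent.X212.End14.Free
import Crest.Agent.X212.Spn45.Fam
import Crest.Agent.X212.Cmp73.Cv
import Crest.Agent.X212.An.Strat

/-! Closed families: coordinates of configurations, free points, convergence. -/

set_option autoImplicit false
set_option linter.unusedSectionVars false
noncomputable section
open scoped Manifold ContDiff Topology InnerProductSpace
open MeasureTheory Set Function Filter

namespace Crest.Agent.X212.Mod61
open An Prm93 Eqv71 Sob92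
open Cmp73 (Cv MB)

variable {E : Type} [NormedAddCommGroup E] [NormedSpace ℝ E] [FiniteDimensional ℝ E]
  [MeasurableSpace E] [BorelSpace E]
  {HM : Type} [TopologicalSpace HM] {I : ModelWithCorners ℝ E HM} [I.Boundaryless]
  {M : Type} [TopologicalSpace M] [ChartedSpace HM M] [IsManifold I ∞ M]
  [MeasurableSpace M] [T2Space M] [BorelSpace M] [SecondCountableTopology M] [CompactSpace M]
  {ι : Type} [Fintype ι] {lam : Type} [Fintype lam]
  {T : Type} [NormedAddCommGroup T] [NormedSpace ℝ T]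
  {𝔉 : Fam I M ι lam T} {o : Ref 𝔉} {r n m k : ℕ}

/-- families on a closed manifold over the whole parameter space -/
structure Fam.Cls (𝔉 : Fam I M ι lam T) : Prop extends 𝔉.OK where
  eQ : 𝔉.Q = univ
  eO : 𝔉.Om = univ
  eO' : 𝔉.Om' = univ

section sb
variable {α : Type} {l : Filter α} {t : α → T} {t₀ : T} {F : Pre I M ι} {Q : Set T}
  {N : Type} [NormedAddCommGroup N] [NormedSpace ℝ N] (hQ : IsOpen Q) (h₀ : t₀ ∈ Q)
  (ht : Tendsto t l (𝓝 t₀))
include hQ h₀ ht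

theorem sb_mb (x : M) : ∀ (k : ℕ) {f : T → M → N}, SB F Q f → MB I l x k fun i => f (t i)
  | 0, f, h => by
    obtain ⟨C, hC⟩ := h.bound 0 h₀
    rw [hQ.nhdsWithin_eq h₀] at hC
    exact MB.zero_of (tendsto_fst.eventually ((ht.eventually (hQ.mem_nhds h₀)).mono
      fun i hi y => (h.cb _ hi).choose_spec.1 y) |>.mono fun q hq => hq q.2)
      ⟨C, (tendsto_fst.eventually (ht.eventually hC)).mono fun q hq => hq [] le_rfl q.2⟩
  | k + 1, _, h => MB.gainP F (sb_mb x 0 h) fun a => sb_mb x k (h.D a)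

theorem sb_cv {f : T → M → N} (h : SB F Q f) : Cv I l univ (fun i => f (t i)) (f t₀) :=
  ⟨fun k x _ => sb_mb hQ h₀ ht x k h, fun x _ =>
    ((h.ev x).continuousOn.continuousAt (hQ.mem_nhds h₀)).tendsto.comp ht⟩

end sb

section hs
variable (h : 𝔉.OK) {V : Type} [NormedAddCommGroup V] [InnerProductSpace ℝ V]
  [FiniteDimensional ℝ V] {p : M → V →L[ℝ] V}
include h

theorem hs_of {u : M → V} (hu : Sm I u) (hp : ∀ x, p x (u x) = u x) : u ∈ Hs 𝔉.F0.toPre p :=
  have := FiniteDimensional.complete ℝ V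
  Hs_sec h.sup ⟨u, hu, .of_compactSpace _, hp⟩

theorem tendsto_ofV {α : Type} {l : Filter α} [l.NeBot] {u : α → M → V} {u₀ : M → V}
    (hu : ∀ i, u i ∈ Hs 𝔉.F0.toPre p) (h0 : u₀ ∈ Hs 𝔉.F0.toPre p) (hc : Cv I l univ u u₀)
    (hk : 4 ≤ k) :
    Tendsto (fun i => ofV 𝔉.F0.toPre k p (u i)) l (𝓝 (ofV 𝔉.F0.toPre k p u₀)) := by
  have := FiniteDimensional.complete ℝ V
  have e : ∀ {u} (hu : u ∈ Hs 𝔉.F0.toPre p), ofV 𝔉.F0.toPre k p u = 𝔉.F0.toH k p
      ⟨u, Cb.sm (Hs_cb h.sup hu), .of_compactSpace _, Hs_proj h.sup hu⟩ := fun hu =>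
    ofV_eq h.sup hk (val_toH h.sup hk _)
  rw [funext fun i => e (hu i), e h0]
  refine tendsto_iff_norm_sub_tendsto_zero.2 ?_
  simp only [← map_sub, Pre.norm_toH]
  exact hc.nrm 𝔉.F0.toPre k

end hs

theorem ceq_neg {B : Base M ι lam} {F : Fr I M ι} {O : Set M} {c c' : Cfg M ι lam r}
    {u : M → CL c.m.V c'.m.V} {ζ : Circle} (e : EqOn B F O c c' u ζ) (h : (ζ : ℂ) = -1) :
    EqOn B F O c c' (fun x => -u x) 1 := by
  refine ⟨⟨e.m.su.neg, fun x hx => by simpa using e.m.uu x hx,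
    fun x hx => by simpa using e.m.uu' x hx, fun x hx => by simpa using e.m.J x hx,
    fun x hx b => by simpa using e.m.ρ x hx b, fun x hx s => by simpa using e.m.j x hx s⟩,
    fun x hx a => ?_, fun x hx => by simpa [cs, h] using e.Φ x hx, by simpa [h] using e.z⟩
  rw [← neg_eq_zero, ← e.W x hx a, Pre.D_def, Pre.D_def,
    show dv I (F.e a) (fun x => -u x) x = _ from dv_neg u x]
  simp only [ContinuousLinearMap.comp_neg, ContinuousLinearMap.neg_comp]
  abel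

namespace Fam.Cls
variable (h : 𝔉.Cls)
include h

theorem mQ (t : T) : t ∈ 𝔉.Q := h.eQ ▸ mem_univ t
theorem mO (x : M) : x ∈ 𝔉.Om := h.eO ▸ mem_univ x
theorem mO' (x : M) : x ∈ 𝔉.Om' := h.eO' ▸ mem_univ x

theorem hG (t : T) : (𝔉.G t).OK 𝔉.B := h.G t (h.mQ t)

theorem Pp_eq (x : M) : o.Pp x = o.m.pp 𝔉.B x := indicator_of_mem (h.mO' x) _

theorem conn0 (t : T) : o.m.IsConn 𝔉.B (𝔉.G t) (o.W t 0) :=
  isConn_W h.toOK (h.mQ t) contMDiff_const fun _ _ => zero_mem _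

/-- forms in the frame of `t` and their coordinates -/
theorem hs_Si (t : T) {β : M → Fm ι o.m.A} (s : Sm I β) (hβ : ∀ x, o.m.p1 𝔉.B x (β x) = β x) :
    (fun x => idx (𝔉.Si t x) (.id ℝ _) (β x)) ∈ Hs 𝔉.F0.toPre o.P1 := by
  refine hs_of h.toOK ((Cb.sm (Std94.Kl.idx (K := Std94.cbK 𝔉.F0.toPre)
    (fun a b => (h.sSi a b).cb t (h.mQ t)) (Cb_const _))).clm_apply s) fun x =>
      idx_of (h.mO x) (fun a => ?_) fun a => ?_
  · rw [idx_apply]
    exact Submodule.sum_mem _ fun b _ => Submodule.smul_mem _ _ ((Spn45.p1_iff.1 (hβ x)).1 b)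
  · simp only [idx_apply, Finset.smul_sum, smul_smul]
    rw [Finset.sum_comm]
    simp only [← Finset.sum_smul, h.PSi t (h.mQ t)]

theorem W_add (t : T) (α : M → Fm ι o.m.A) {β : M → Fm ι o.m.A}
    (hβ : ∀ x, o.m.p1 𝔉.B x (β x) = β x) :
    o.W t (α + fun x => idx (𝔉.Si t x) (.id ℝ _) (β x)) = o.m.addC (o.W t α) β := by
  funext a x
  rw [Md.addC, ← (Spn45.p1_iff.1 (hβ x)).2 a]
  simp only [W_apply, idx_apply, Pi.add_apply, PiLp.add_apply, map_add, smul_add,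
    Finset.sum_add_distrib, add_assoc, map_sum, map_smul, Finset.smul_sum, smul_smul,
    ContinuousLinearMap.id_apply, add_right_inj]
  rw [Finset.sum_comm]
  simp only [← Finset.sum_smul, h.SSi t (h.mQ t)]

/-- the point of a configuration over the module of `o` -/
theorem exists_crd (h0 : o.Φ0 = 0) {t : T} {W : o.m.Cn} {Φ : M → o.m.V}
    {z : EuclideanSpace ℂ (Fin r)} (a : Adm0 ⟨o.m, W, Φ, z⟩ 𝔉.B (𝔉.G t)) :
    ∃ y : Pnt o r, y.t = t ∧ y.φ = Φ ∧ y.z = z ∧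
      (y.α = fun x => idx (𝔉.Si t x) (.id ℝ _) (Spn45.dif o.m (o.W t 0) W x)) ∧
      Cfg.Iso 𝔉.B (𝔉.G t).F y.cfg ⟨o.m, W, Φ, z⟩ := by
  have C := h.conn0 (o := o) t
  have p1 := Spn45.p1_dif C a.conn o.ok
  let y : Pnt o r := ⟨_, Φ, z, t, h.hs_Si t (Spn45.sm_dif o.ok C a.conn) p1,
    hs_of h.toOK a.sm fun x => by rw [h.Pp_eq]; exact a.pos x, h.mQ t⟩
  have e := ceq_refl h.B (h.hG t) a.ad0 isOpen_univ
  refine ⟨y, rfl, rfl, rfl, rfl, o.m.p, 1, e.m, Spn45.par_p a.conn h.B fun b x => ?_,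
    fun x hx => ?_, e.z⟩
  · have := h.W_add t 0 p1
    rw [zero_add] at this
    exact (congrArg (fun W : o.m.Cn => o.m.p x * W b x) this).trans (Spn45.p_addC_dif o.ok b)
  · have : y.cfg.Φ x = Φ x := by simp [Pnt.cfg, h0, y]
    rw [this]
    exact e.Φ x hx

/-- a reference adapted to a configuration -/
theorem exists_ref {t : T} {c : Cfg M ι lam r} (a : Adm0 c 𝔉.B (𝔉.G t)) :
    ∃ (o : Ref 𝔉) (y : Pnt o r), o.Φ0 = 0 ∧ o.b = 0 ∧ y.t = t ∧ y.α = 0 ∧ y.cfg = c := by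
  obtain ⟨m, W, Φ, z⟩ := c
  have H : m.OK I 𝔉.B := a.ok
  have C0 := Spn45.isConn_can h.B h.G0 H
  have C1 := h.conn m _ H C0 t (h.mQ t)
  have C : m.IsConn 𝔉.B (𝔉.G t) W := a.conn
  set A := Spn45.can m 𝔉.G0
  let β : m.Cn := fun a x => ∑ b, 𝔉.Si t x a b • (W b x - 𝔉.W0 m A t b x)
  have C2 : m.IsConn 𝔉.B 𝔉.G0 (A + β) := Spn45.isConn_add C0
    ⟨fun a x => Wz78.SA.sum _ fun b _ => Wz78.SA.smul (Cb.sm ((h.sSi a b).cb t (h.mQ t)) x)
      ((C.cc.sm b x).sub (C1.cc.sm b x)), fun a x => by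
        simp only [β, Finset.smul_sum, smul_smul]
        rw [Finset.sum_comm]
        simp only [← Finset.sum_smul, h.PSi t (h.mQ t)]⟩
    (fun a x => (Spn45.skS m.V).sum_mem fun b _ => (Spn45.skS m.V).smul_mem _
      ((Spn45.skS m.V).sub_mem (C.sk b x) (C1.sk b x)))
    (fun a x => by simp only [β, Finset.sum_mul, Finset.mul_sum, smul_mul_assoc, mul_smul_comm,
      Spn45.sub_p C1 C])
    (fun a b x => by simp only [β, Finset.sum_mul, Finset.mul_sum, smul_mul_assoc, mul_smul_comm,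
      C.cc.sub_comm C1.cc])
    (fun a x => by simp only [β, Finset.sum_mul, Finset.mul_sum, smul_mul_assoc, mul_smul_comm,
      Spn45.sub_J C1 C])
    fun a x s => by simp only [β, Finset.sum_mul, Finset.mul_sum, smul_mul_assoc, mul_smul_comm,
      Spn45.sub_j C1 C]
  let o : Ref 𝔉 :=
    { m := m, A0 := A + β, Φ0 := 0, ok := H, conn := C2, cp := Cb_of_compact H.sp
      cρ := fun b => Cb_of_compact (H.sρ b), cj := Cb_of_compact H.sj
      cA := fun b => Cb_of_compact (C2.cc.sm b), cΦ := Cb_const 0, pos := fun _ => map_zero _ }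
  have : o.B0 := ⟨rfl⟩
  refine ⟨o, ⟨0, Φ, z, t, zero_mem _, hs_of h.toOK a.sm fun x => by
    rw [h.Pp_eq]; exact a.pos x, h.mQ t⟩, rfl, rfl, rfl, rfl, ?_⟩
  have e : o.W t 0 = W := funext fun b => funext fun x => by
    have e1 : ∑ c, 𝔉.S t x b c • β c x = W b x - 𝔉.W0 m A t b x := by
      simp only [β, Finset.smul_sum, smul_smul]
      rw [Finset.sum_comm]
      simp only [← Finset.sum_smul, h.SSi t (h.mQ t), smul_sub, Finset.sum_sub_distrib, C.cc.proj,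
        C1.cc.proj]
    rw [W_apply, o.A_eq, eq_sub_iff_add_eq.1 e1 |>.symm]
    simp only [Fam.W0, o, Pi.add_apply, smul_add, Finset.sum_add_distrib, Pi.zero_apply,
      PiLp.zero_apply, map_zero, smul_zero, Finset.sum_const_zero]
    abel
  simp only [Pnt.cfg, e]
  congr 1
  exact zero_add _

/-- smooth convergence gives convergence of the points -/
theorem tendsto_crd (hk : 3 ≤ k) {α : Type} {l : Filter α} [l.NeBot] {y : α → Pnt o r}
    {y₀ : Pnt o r} (h0 : y₀.α = 0) {W : α → o.m.Cn}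
    (ht : Tendsto (fun i => (y i).t) l (𝓝 y₀.t)) (hz : Tendsto (fun i => (y i).z) l (𝓝 y₀.z))
    (hφ : Cv I l univ (fun i => (y i).φ) y₀.φ) (hW : ∀ a, Cv I l univ (fun i => W i a) (y₀.cfg.W a))
    (e : ∀ᶠ i in l, (y i).α = fun x => idx (𝔉.Si (y i).t x) (.id ℝ _)
      (Spn45.dif o.m (o.W (y i).t 0) (W i) x)) :
    Tendsto (fun i => (y i).pt k) l (𝓝 (y₀.pt k)) := by
  have cv := fun {N : Type} [NormedAddCommGroup N] [NormedSpace ℝ N] {f : T → M → N} =>
    sb_cv (F := 𝔉.F0.toPre) (f := f) h.opn y₀.ht ht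
  have c0 : ∀ a, Cv I l univ (fun i => o.W (y i).t 0 a) (o.W y₀.t 0 a) := fun a => by
    have := cv ((Map77.sb_u0 o h.toOK).clm (opL ∘L Grp76.pj o.m.A a ∘L Map77.fa))
    refine this.congr' isOpen_univ (.of_forall fun i x _ => ?_) fun x _ => ?_ <;>
      simp [W_apply, Map77.u0, Map77.base]
  refine (tendsto_ofV h.toOK (fun i => (y i).hα) y₀.hα ?_ (by omega)).prodMk_nhds
    ((tendsto_ofV h.toOK (fun i => (y i).hφ) y₀.hφ hφ (by omega)).prodMk_nhds (hz.prodMk_nhds ht))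
  have c1 := (Cv.pi fun a => Cv.sum fun b => (cv (h.sSi a b)).smul
    (((Cv.fixed' o.ok.sp).mul ((hW b).sub (c0 b))).clm hsL)).clm
      (PiLp.continuousLinearEquiv 2 ℝ fun _ : ι => o.m.A).symm.toContinuousLinearMap
  refine c1.congr' isOpen_univ (e.mono fun i hi x _ => ?_) fun x _ => ?_
  · rw [hi]; ext1 a; rw [idx_apply]; rfl
  · ext1 a; simp [Pnt.cfg, h0]

/-- points with `Φ ≠ 0` and `z ≠ 0` are free -/
theorem free [ConnectedSpace M] {y : Pnt o r} (hΦ : y.cfg.Φ ≠ 0) (hz : y.z ≠ 0) :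
    y.Free fun _ _ => True := by
  obtain ⟨x₀, hx₀⟩ := ne_iff.1 hΦ
  have k : ∀ w, y.Eq y w 1 → ∀ x, w x = o.m.p x := fun w e x => by
    have := End14.norm_dif h.toOK e (h.mO x₀) (x' := x) (by simp)
    rw [End14.dif_zero h.toOK e (h.mO x₀) hx₀, norm_zero, norm_eq_zero, Grp76.dif,
      indicator_of_mem (h.mO x)] at this
    rw [← sub_eq_zero, ← Wz78.opL_hsL (w x - _), this, map_zero]
  intro w c _ e
  have hc : (c : ℂ) ^ 2 = 1 := by
    have : y.z = (c : ℂ) ^ 2 • y.z := e.z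
    rw [← sub_eq_zero, ← one_smul ℂ y.z, smul_smul, ← sub_smul, smul_eq_zero, mul_one] at this
    exact (sub_eq_zero.1 (this.resolve_right hz)).symm
  obtain ⟨s, hs, e1⟩ : ∃ s : ℝ, (c : ℂ) = s ∧ ∀ x, w x = s • o.m.p x := by
    rcases sq_eq_one_iff.1 hc with h1 | h1
    · exact ⟨1, h1, fun x => by rw [one_smul, k w ((Circle.ext h1 : c = 1) ▸ e)]⟩
    exact ⟨-1, by simpa using h1, fun x => (neg_eq_iff_eq_neg.1
      (k (fun x => -w x) (ceq_neg e h1) x)).trans (neg_one_smul _ _).symm⟩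
  have hs2 : s * s = 1 := by
    rw [hs, sq] at hc; exact_mod_cast hc
  refine ⟨fun x hx ξ hξ => ?_, fun x hx v hv => ?_, fun z => by rw [hc, one_smul]⟩
  · have m : MX o o x (w x) := me_of_meq e.m hx
    refine m.cancel (m.cj_mem (BE.refl h.B x) o.ok o.ok hξ) hξ ?_
    rw [m.cj_comp hξ, e1, ContinuousLinearMap.smul_comp, ContinuousLinearMap.comp_smul]
    exact congrArg _ ((Wz78.g_p hξ).trans (Wz78.g_p' o.ok hξ).symm)
  · have : o.m.p x v = v := by
      rw [← hv, ← mul_apply_eq_comp, Std94.p_pp h.B (Std94.pmx o.ok x)]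
    simp [cs, hs, e1, this, smul_smul, hs2]

end Fam.Cls

end Crest.Agent.X212.Mod61
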