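import Mathlib
import Crest.Agent.X212.Slc61.Slice
import Crest.Agent.X212.Sard93.Smale
import Crest.Agent.X212.Fin93.Main
import Crest.Agent.X212.Fred93.Basic

-- ▼ part X212/Par72/Core
section

/-! Parity for topological 1-manifolds with boundary, without classification:
"Stokes mod 2" for `ZMod 2`-valued functions that are locally constant off a finite set. -/

namespace Crest.Agent.X212.Par72

open Set Filter Topology
open scoped NNReal

variable {X : Type*} [TopologicalSpace X]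

/-- `f` is constant near `x`. -/
def LC (f : X → ZMod 2) (x : X) : Prop := ∀ᶠ y in 𝓝 x, f y = f x

/-- no jump of `f` at `x` (at a boundary point: `f` vanishes near `x`). -/
def Good (B : Set X) (f : X → ZMod 2) (x : X) : Prop :=
  ∃ c, (x ∈ B → c = 0) ∧ ∀ᶠ y in 𝓝[≠] x, f y = c

open Classical in
/-- the jump of `f` at `x`. -/
noncomputable def jmp (B : Set X) (f : X → ZMod 2) (x : X) : ZMod 2 :=
  if Good B f x then 0 else 1

/-- locally constant (and zero on the boundary) off a finite set. -/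
def Tame (B : Set X) (f : X → ZMod 2) : Prop :=
  {x | ¬ (LC f x ∧ (x ∈ B → f x = 0))}.Finite

/-- a half-line chart in which `B` is the preimage of `0`. -/
def IsCh (B : Set X) (e : OpenPartialHomeomorph X ℝ≥0) : Prop :=
  ∀ y ∈ e.source, (y ∈ B ↔ e y = 0)

theorem jmp_of_good {B : Set X} {f : X → ZMod 2} {x : X} (h : Good B f x) : jmp B f x = 0 := by
  simp [jmp, h]

theorem jmp_of_not {B : Set X} {f : X → ZMod 2} {x : X} (h : ¬ Good B f x) : jmp B f x = 1 := by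
  simp [jmp, h]

theorem jmp_of_lc {B : Set X} {f : X → ZMod 2} {x : X} (h : LC f x) (hb : x ∈ B → f x = 0) :
    jmp B f x = 0 :=
  jmp_of_good ⟨f x, hb, h.filter_mono nhdsWithin_le_nhds⟩

theorem jmp_of_zero {B : Set X} {f : X → ZMod 2} {x : X} (h : ∀ᶠ y in 𝓝[≠] x, f y = 0) :
    jmp B f x = 0 :=
  jmp_of_good ⟨0, fun _ => rfl, h⟩

theorem jmp_congr {B : Set X} {f g : X → ZMod 2} {x : X} (h : ∀ᶠ y in 𝓝[≠] x, f y = g y) :
    jmp B f x = jmp B g x := by
  have : Good B f x ↔ Good B g x := by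
    constructor
    · rintro ⟨c, h1, h2⟩
      exact ⟨c, h1, by filter_upwards [h, h2] with y a b; rw [← a, b]⟩
    · rintro ⟨c, h1, h2⟩
      exact ⟨c, h1, by filter_upwards [h, h2] with y a b; rw [a, b]⟩
  unfold jmp
  rw [this]

theorem LC.congr {f g : X → ZMod 2} {x : X} (h : LC f x) (hfg : ∀ᶠ y in 𝓝 x, f y = g y) :
    LC g x := by
  have h0 : f x = g x := hfg.self_of_nhds
  filter_upwards [h, hfg] with y a b
  rw [← b, a, h0]

theorem lc_of_eventually {f : X → ZMod 2} {x : X} {c : ZMod 2} (h : ∀ᶠ y in 𝓝 x, f y = c) :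
    LC f x := by
  have h0 : f x = c := h.self_of_nhds
  filter_upwards [h] with y a
  rw [a, h0]

theorem const_of_lc {f : X → ZMod 2} {s : Set X} (hs : IsPreconnected s)
    (h : ∀ x ∈ s, LC f x) {x y : X} (hx : x ∈ s) (hy : y ∈ s) : f x = f y := by
  refine hs.constant (f := f) (fun z hz => ?_) hx hy
  exact (continuousAt_const.congr (f := fun _ => f z)
    ((h z hz).mono fun w hw => hw.symm)).continuousWithinAt

theorem Tame.support_finite {B : Set X} {f : X → ZMod 2} (h : Tame B f) :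
    (Function.support (jmp B f)).Finite :=
  h.subset fun _ hx hc => hx (jmp_of_lc hc.1 hc.2)

theorem Tame.lc_ne [T1Space X] {B : Set X} {f : X → ZMod 2} (h : Tame B f) (x : X) :
    ∀ᶠ y in 𝓝[≠] x, LC f y := by
  have h1 : IsClosed ({x | ¬ (LC f x ∧ (x ∈ B → f x = 0))} \ {x}) := (h.subset sdiff_subset).isClosed
  have h2 := h1.isOpen_compl.mem_nhds (x := x) (by simp)
  filter_upwards [nhdsWithin_le_nhds h2, self_mem_nhdsWithin] with y a b
  by_contra hc
  exact a ⟨fun hh => hc hh.1, b⟩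

/-! ### the half-line -/

theorem sides {g : ℝ≥0 → ZMod 2} {t : ℝ≥0} (h : ∀ᶠ s in 𝓝[≠] t, LC g s) :
    ∃ a b, (t = 0 → a = 0) ∧ (∀ᶠ s in 𝓝[<] t, g s = a) ∧ ∀ᶠ s in 𝓝[>] t, g s = b := by
  rw [← nhdsLT_sup_nhdsGT, eventually_sup] at h
  obtain ⟨h1, h2⟩ := h
  obtain ⟨u, hu, hsub⟩ := mem_nhdsGT_iff_exists_Ioo_subset.1 h2
  obtain ⟨p, hp⟩ : (Ioo t u).Nonempty := nonempty_Ioo.2 hu
  have hb : ∀ᶠ s in 𝓝[>] t, g s = g p := by
    filter_upwards [Ioo_mem_nhdsGT hu] with s hs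
    exact const_of_lc isPreconnected_Ioo (fun z hz => hsub hz) hs hp
  rcases eq_or_ne t 0 with rfl | ht
  · refine ⟨0, g p, fun _ => rfl, ?_, hb⟩
    filter_upwards [self_mem_nhdsWithin] with s hs
    exact absurd hs (not_lt.2 (zero_le (a := s)))
  · have ht' : (0 : ℝ≥0) < t := pos_iff_ne_zero.2 ht
    obtain ⟨l, hl, hsub'⟩ := (mem_nhdsLT_iff_exists_Ioo_subset' ht').1 h1
    obtain ⟨q, hq⟩ : (Ioo l t).Nonempty := nonempty_Ioo.2 hl
    refine ⟨g q, g p, fun h => absurd h ht, ?_, hb⟩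
    filter_upwards [Ioo_mem_nhdsLT hl] with s hs
    exact const_of_lc isPreconnected_Ioo (fun z hz => hsub' hz) hs hq

theorem jmp_eq {g : ℝ≥0 → ZMod 2} {t : ℝ≥0} {a b : ZMod 2} (h0 : t = 0 → a = 0)
    (ha : ∀ᶠ s in 𝓝[<] t, g s = a) (hb : ∀ᶠ s in 𝓝[>] t, g s = b) :
    jmp {0} g t = a + b := by
  have key : ∀ a b : ZMod 2, a + b = 0 ↔ a = b := by decide
  by_cases hG : Good {0} g t
  · rw [jmp_of_good hG]
    obtain ⟨c, h1, h2⟩ := hG
    rw [← nhdsLT_sup_nhdsGT, eventually_sup] at h2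
    have hbc : b = c := by
      obtain ⟨s, p, q⟩ := (hb.and h2.2).exists
      rw [← p, q]
    rcases eq_or_ne t 0 with rfl | ht
    · rw [h0 rfl, hbc, h1 rfl, add_zero]
    · have ht' : (0 : ℝ≥0) < t := pos_iff_ne_zero.2 ht
      have : (𝓝[<] t).NeBot := nhdsLT_neBot_of_exists_lt ⟨0, ht'⟩
      obtain ⟨s, p, q⟩ := (ha.and h2.1).exists
      exact ((key a b).2 (by rw [← p, q, hbc])).symm
  · rw [jmp_of_not hG]
    have hne : a ≠ b := by
      rintro rfl
      refine hG ⟨a, fun h => h0 h, ?_⟩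
      rw [← nhdsLT_sup_nhdsGT, eventually_sup]
      exact ⟨ha, hb⟩
    have k2 : ∀ a b : ZMod 2, a ≠ b → 1 = a + b := by decide
    exact k2 a b hne

theorem line_aux (D : Finset ℝ≥0) : 0 ∉ D → ∀ (g : ℝ≥0 → ZMod 2) (c : ZMod 2),
    (∀ t, t ≠ 0 → t ∉ D → LC g t) → (∀ᶠ s in atTop, g s = c) →
    jmp {0} g 0 + ∑ t ∈ D, jmp {0} g t = c := by
  have tail : ∀ (g : ℝ≥0 → ZMod 2) (c : ZMod 2) (m : ℝ≥0), (∀ t, m < t → LC g t) →
      (∀ᶠ s in atTop, g s = c) → ∀ᶠ s in 𝓝[>] m, g s = c := by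
    intro g c m h hc
    obtain ⟨p, hp1, hp2⟩ := (hc.and (eventually_gt_atTop m)).exists
    filter_upwards [self_mem_nhdsWithin] with s hs
    rw [← hp1]
    exact const_of_lc isPreconnected_Ioi (fun z hz => h z hz) hs hp2
  induction D using Finset.induction_on_max with
  | empty =>
    intro _ g c h hc
    have := jmp_eq (g := g) (t := 0) (a := 0) (b := c) (fun _ => rfl)
      (by filter_upwards [self_mem_nhdsWithin] with s hs
          exact absurd hs (not_lt.2 (zero_le (a := s))))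
      (tail g c 0 (fun t ht => h t ht.ne' (by simp)) hc)
    simpa using this
  | insert m D hm ih =>
    intro h0 g c h hc
    have hm0 : m ≠ 0 := fun e => h0 (by simp [e])
    have hmp : (0 : ℝ≥0) < m := pos_iff_ne_zero.2 hm0
    have h0' : 0 ∉ D := fun e => h0 (Finset.mem_insert_of_mem e)
    have hmD : m ∉ D := fun e => lt_irrefl _ (hm m e)
    have hT : Tame ({0} : Set ℝ≥0) g := by
      refine (insert 0 (insert m D) : Finset ℝ≥0).finite_toSet.subset fun t ht => ?_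
      by_contra hc'
      have h1 : t ≠ 0 := fun e => hc' (by simp [e])
      have h2 : t ∉ insert m D := fun e => hc' (by simp only [Finset.coe_insert]; exact Or.inr (by simpa using e))
      exact ht ⟨h t h1 h2, fun e => absurd e h1⟩
    obtain ⟨a, b, -, ha, -⟩ := sides (hT.lc_ne m)
    have hb : ∀ᶠ s in 𝓝[>] m, g s = c := tail g c m (fun t ht => h t (hmp.trans ht).ne' (by
      simp only [Finset.mem_insert, not_or]
      exact ⟨ht.ne', fun e => lt_asymm ht (hm t e)⟩)) hc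
    have hjm : jmp {0} g m = a + c := jmp_eq (fun e => absurd e hm0) ha hb
    let g' : ℝ≥0 → ZMod 2 := fun s => if s < m then g s else a
    have hlt : ∀ t, t < m → ∀ᶠ s in 𝓝 t, g s = g' s := fun t ht => by
      filter_upwards [Iio_mem_nhds ht] with s hs
      simp only [g', if_pos (show s < m from hs)]
    have h' : ∀ t, t ≠ 0 → t ∉ D → LC g' t := by
      intro t ht htD
      rcases lt_trichotomy t m with hl | rfl | hl
      · exact (h t ht (by simp [hl.ne, htD])).congr (hlt t hl)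
      · refine lc_of_eventually (c := a) ?_
        rw [← nhdsLT_sup_nhdsGE, eventually_sup]
        constructor
        · filter_upwards [ha, self_mem_nhdsWithin] with s p q
          simp only [g', if_pos (show s < t from q), p]
        · filter_upwards [self_mem_nhdsWithin] with s q
          simp only [g', if_neg (not_lt.2 (show t ≤ s from q))]
      · refine lc_of_eventually (c := a) ?_
        filter_upwards [Ioi_mem_nhds hl] with s q
        simp only [g', if_neg (not_lt.2 (le_of_lt (show m < s from q)))]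
    have hc' : ∀ᶠ s in atTop, g' s = a := by
      filter_upwards [eventually_ge_atTop m] with s q
      simp only [g', if_neg (not_lt.2 q)]
    have H := ih h0' g' a h' hc'
    have e0 : jmp {0} g 0 = jmp {0} g' 0 := jmp_congr ((hlt 0 hmp).filter_mono nhdsWithin_le_nhds)
    have e1 : ∑ t ∈ D, jmp {0} g t = ∑ t ∈ D, jmp {0} g' t :=
      Finset.sum_congr rfl fun t ht => jmp_congr ((hlt t (hm t ht)).filter_mono nhdsWithin_le_nhds)
    rw [Finset.sum_insert hmD, hjm, e0, e1]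
    have two : ∀ a c : ZMod 2, a + c + a = c := by decide
    calc _ = a + c + (jmp {0} g' 0 + ∑ t ∈ D, jmp {0} g' t) := by ring
      _ = c := by rw [H, two]

theorem line {g : ℝ≥0 → ZMod 2} (hg : Tame {0} g) (hc : ∀ᶠ s in atTop, g s = 0) :
    ∑ᶠ t, jmp {0} g t = 0 := by
  classical
  let D : Finset ℝ≥0 := hg.toFinset.erase 0
  have h0 : 0 ∉ D := Finset.notMem_erase _ _
  have hD : ∀ t, t ≠ 0 → t ∉ D → LC g t := fun t ht h => by
    by_contra hc
    exact h (Finset.mem_erase.2 ⟨ht, hg.mem_toFinset.2 fun hh => hc hh.1⟩)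
  rw [finsum_eq_sum_of_support_subset (s := insert 0 D), Finset.sum_insert h0]
  · exact line_aux D h0 g 0 hD hc
  · intro t ht
    by_contra hc'
    have h1 : t ≠ 0 := fun e => hc' (by simp [e])
    have h2 : t ∉ D := fun e => hc' (by simp [e])
    exact ht (jmp_of_lc (hD t h1 h2) fun e => absurd e h1)

/-! ### charts -/

theorem map_ne {Y : Type*} [TopologicalSpace Y] (e : OpenPartialHomeomorph X Y) {x : X}
    (hx : x ∈ e.source) : map e.symm (𝓝[≠] (e x)) = 𝓝[≠] x := by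
  have h : e.IsImage {x}ᶜ {e x}ᶜ := fun y hy => by
    simp only [mem_compl_iff, mem_singleton_iff]
    exact not_congr ⟨fun h => e.injOn hy hx h, fun h => by rw [h]⟩
  have := h.symm.map_nhdsWithin_eq (e.map_source hx)
  rwa [e.left_inv hx] at this

theorem jmp_chart {Y : Type*} [TopologicalSpace Y] {B : Set X} {B' : Set Y}
    (e : OpenPartialHomeomorph X Y) {x : X} (hx : x ∈ e.source) (hB : x ∈ B ↔ e x ∈ B')
    (f : X → ZMod 2) : jmp B f x = jmp B' (fun t => f (e.symm t)) (e x) := by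
  have : Good B f x ↔ Good B' (fun t => f (e.symm t)) (e x) := by
    unfold Good
    rw [← map_ne e hx, hB]
    simp only [eventually_map]
  unfold jmp
  rw [this]

theorem lc_chart {Y : Type*} [TopologicalSpace Y] (e : OpenPartialHomeomorph X Y) {t : Y}
    (ht : t ∈ e.target) {f : X → ZMod 2} (h : LC f (e.symm t)) :
    LC (fun s => f (e.symm s)) t :=
  (e.continuousAt_symm ht).eventually h

theorem lc_ne_chart {Y : Type*} [TopologicalSpace Y] (e : OpenPartialHomeomorph X Y) {x : X}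
    (hx : x ∈ e.source) {f : X → ZMod 2} (h : ∀ᶠ y in 𝓝[≠] x, LC f y) :
    ∀ᶠ s in 𝓝[≠] (e x), LC (fun s => f (e.symm s)) s := by
  rw [← map_ne e hx, eventually_map] at h
  filter_upwards [h, nhdsWithin_le_nhds (e.open_target.mem_nhds (e.map_source hx))] with s a b
  exact lc_chart e b a

theorem jmp_add {B : Set X} {e : OpenPartialHomeomorph X ℝ≥0} (he : IsCh B e) {x : X}
    (hx : x ∈ e.source) {f g : X → ZMod 2} (hf : ∀ᶠ y in 𝓝[≠] x, LC f y)
    (hg : ∀ᶠ y in 𝓝[≠] x, LC g y) :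
    jmp B (fun y => f y + g y) x = jmp B f x + jmp B g x := by
  have hB : x ∈ B ↔ e x ∈ ({0} : Set ℝ≥0) := he x hx
  obtain ⟨a, b, h0, ha, hb⟩ := sides (lc_ne_chart e hx hf)
  obtain ⟨a', b', h0', ha', hb'⟩ := sides (lc_ne_chart e hx hg)
  rw [jmp_chart e hx hB, jmp_chart e hx hB f, jmp_chart e hx hB g, jmp_eq h0 ha hb,
    jmp_eq h0' ha' hb', jmp_eq (a := a + a') (b := b + b')]
  · ring
  · intro h; rw [h0 h, h0' h, add_zero]
  · filter_upwards [ha, ha'] with s p q; rw [p, q]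
  · filter_upwards [hb, hb'] with s p q; rw [p, q]

theorem cell [T2Space X] {B : Set X} {e : OpenPartialHomeomorph X ℝ≥0} (he : IsCh B e)
    {C : Set ℝ≥0} (hC : IsCompact C) (hCt : C ⊆ e.target) {f : X → ZMod 2} (hf : Tame B f)
    (hs : ∀ x, x ∉ e.symm '' C → f x = 0) : ∑ᶠ x, jmp B f x = 0 := by
  classical
  let g : ℝ≥0 → ZMod 2 := fun t => if t ∈ e.target then f (e.symm t) else 0
  have hN : IsCompact (e.symm '' C) := hC.image_of_continuousOn (e.continuousOn_symm.mono hCt)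
  have hg0 : ∀ t, t ∉ C → g t = 0 := fun t ht => by
    by_cases h : t ∈ e.target
    · simp only [g, if_pos h]
      refine hs _ ?_
      rintro ⟨s, hsC, hst⟩
      exact ht (e.symm.injOn (hCt hsC) h hst ▸ hsC)
    · simp only [g, if_neg h]
  have hgz : ∀ t, t ∉ C → ∀ᶠ s in 𝓝 t, g s = 0 := fun t ht => by
    filter_upwards [hC.isClosed.isOpen_compl.mem_nhds ht] with s h using hg0 s h
  have hge : ∀ t ∈ e.target, ∀ᶠ s in 𝓝 t, f (e.symm s) = g s := fun t ht => by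
    filter_upwards [e.open_target.mem_nhds ht] with s h
    simp only [g, if_pos h]
  have hg : Tame {0} g := by
    refine ((hf.image e).insert 0).subset fun t ht => ?_
    by_contra hc
    have h1 : t ≠ 0 := fun h => hc (Or.inl h)
    refine ht ⟨?_, fun h => absurd h h1⟩
    by_cases h : t ∈ e.target
    · refine (lc_chart e h ?_).congr (hge t h)
      by_contra hl
      exact hc (Or.inr ⟨e.symm t, fun hh => hl hh.1, e.right_inv h⟩)
    · exact lc_of_eventually (hgz t fun hh => h (hCt hh))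
  have hinf : ∀ᶠ s in atTop, g s = 0 := by
    obtain ⟨M, hM⟩ := hC.bddAbove
    filter_upwards [eventually_gt_atTop M] with s h
    exact hg0 s fun hh => not_lt.2 (hM hh) h
  have e1 : ∑ᶠ x, jmp B f x = ∑ᶠ x ∈ e.source, jmp B f x := by
    rw [finsum_mem_def, indicator_eq_self.2]
    intro x hx
    by_contra hc
    refine hx (jmp_of_zero (nhdsWithin_le_nhds ?_))
    have : x ∉ e.symm '' C := by
      rintro ⟨s, h1, rfl⟩
      exact hc (e.map_target (hCt h1))
    filter_upwards [hN.isClosed.isOpen_compl.mem_nhds this] with y hy using hs y hy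
  have e2 : ∑ᶠ t, jmp {0} g t = ∑ᶠ t ∈ e.target, jmp {0} g t := by
    rw [finsum_mem_def, indicator_eq_self.2]
    intro t ht
    by_contra hc
    exact ht (jmp_of_zero (nhdsWithin_le_nhds (hgz t fun hh => hc (hCt hh))))
  rw [e1, ← line hg hinf, e2]
  refine finsum_mem_eq_of_bijOn e e.bijOn fun x hx => ?_
  rw [jmp_chart (B' := {0}) e hx (he x hx)]
  exact jmp_congr ((hge _ (e.map_source hx)).filter_mono nhdsWithin_le_nhds)

/-- a compact arc with finite frontier inside a chart. -/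
def IsCell (B : Set X) (N : Set X) : Prop :=
  ∃ (e : OpenPartialHomeomorph X ℝ≥0) (C : Set ℝ≥0), IsCh B e ∧ IsCompact C ∧ C ⊆ e.target ∧
    N = e.symm '' C ∧ (frontier N).Finite

theorem IsCell.isClosed [T2Space X] {B N : Set X} (h : IsCell B N) : IsClosed N := by
  obtain ⟨e, C, -, hC, hCt, rfl, -⟩ := h
  exact (hC.image_of_continuousOn (e.continuousOn_symm.mono hCt)).isClosed

theorem exists_cell [T2Space X] {B : Set X} {e : OpenPartialHomeomorph X ℝ≥0} (he : IsCh B e)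
    {x : X} (hx : x ∈ e.source) : ∃ N, IsCell B N ∧ N ∈ 𝓝 x := by
  obtain ⟨a, b, -, hn, hsub⟩ :=
    exists_Icc_mem_subset_of_mem_nhds (e.open_target.mem_nhds (e.map_source hx))
  have hN : IsClosed (e.symm '' Icc a b) :=
    (isCompact_Icc.image_of_continuousOn (e.continuousOn_symm.mono hsub)).isClosed
  refine ⟨e.symm '' Icc a b, ⟨e, Icc a b, he, isCompact_Icc, hsub, rfl, ?_⟩, ?_⟩
  · refine (toFinite ({e.symm a, e.symm b} : Set X)).subset fun y hy => ?_
    rw [hN.frontier_eq] at hy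
    obtain ⟨⟨t, ht, rfl⟩, hy2⟩ := hy
    by_contra hc
    have h1 : t ≠ a := fun h => hc (Or.inl (by rw [h]))
    have h2 : t ≠ b := fun h => hc (Or.inr (by rw [h]; rfl))
    exact hy2 (mem_interior_iff_mem_nhds.2 (e.symm.image_mem_nhds (hsub ht)
      (Icc_mem_nhds (lt_of_le_of_ne ht.1 h1.symm) (lt_of_le_of_ne ht.2 h2))))
  · rw [← e.symm_map_nhds_eq hx]
    exact image_mem_map hn

theorem lc_ite {N : Set X} {x : X} (hx : x ∉ frontier N) :
    (∀ᶠ y in 𝓝 x, y ∈ N) ∨ ∀ᶠ y in 𝓝 x, y ∉ N := by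
  by_cases h : x ∈ closure N
  · left
    have : x ∈ interior N := by
      by_contra hc
      exact hx ⟨h, hc⟩
    exact mem_interior_iff_mem_nhds.1 this
  · right
    filter_upwards [isClosed_closure.isOpen_compl.mem_nhds h] with y hy hc
    exact hy (subset_closure hc)

theorem Tame.indicator {B N : Set X} {f : X → ZMod 2} (hf : Tame B f)
    (hN : (frontier N).Finite) : Tame B (N.indicator f) := by
  refine (hf.union hN).subset fun x hx => ?_
  by_contra hc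
  simp only [mem_union, mem_ofPred_eq, not_or, not_not] at hc
  obtain ⟨⟨h1, h2⟩, h3⟩ := hc
  refine hx ⟨?_, fun h => ?_⟩
  · rcases lc_ite h3 with h | h
    · exact h1.congr (h.mono fun y hy => (indicator_of_mem hy f).symm)
    · exact lc_of_eventually (h.mono fun y hy => indicator_of_notMem hy f)
  · by_cases h' : x ∈ N
    · rw [indicator_of_mem h', h2 h]
    · rw [indicator_of_notMem h']

theorem cells [T2Space X] {B : Set X} (S : Finset (Set X)) : (∀ N ∈ S, IsCell B N) →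
    ∀ f : X → ZMod 2, Tame B f → (∀ x, (∀ N ∈ S, x ∉ N) → f x = 0) → ∑ᶠ x, jmp B f x = 0 := by
  classical
  induction S using Finset.induction_on with
  | empty =>
    intro _ f _ h
    exact finsum_eq_zero_of_forall_eq_zero fun x =>
      jmp_of_zero (Eventually.of_forall fun y => h y (by simp))
  | insert N S _ ih =>
    intro hS f hf h
    have hNc := hS N (Finset.mem_insert_self _ _)
    obtain ⟨e, C, he, hC, hCt, hN, hfr⟩ := hNc
    have h1 : Tame B (N.indicator f) := hf.indicator hfr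
    have h2 : Tame B (Nᶜ.indicator f) := hf.indicator (by rwa [frontier_compl])
    have k1 : ∑ᶠ x, jmp B (N.indicator f) x = 0 :=
      cell he hC hCt h1 fun x hx => indicator_of_notMem (hN ▸ hx) f
    have k2 : ∑ᶠ x, jmp B (Nᶜ.indicator f) x = 0 := by
      refine ih (fun M hM => hS M (Finset.mem_insert_of_mem hM)) _ h2 fun x hx => ?_
      by_cases h' : x ∈ N
      · exact indicator_of_notMem (s := Nᶜ) (fun hh => hh h') f
      · rw [indicator_of_mem (show x ∈ Nᶜ from h')]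
        refine h x fun M hM => ?_
        rcases Finset.mem_insert.1 hM with rfl | hM
        · exact h'
        · exact hx M hM
    have hsum : ∀ y, f y = N.indicator f y + Nᶜ.indicator f y := fun y =>
      (congrFun (indicator_self_add_compl N f) y).symm
    have k3 : ∀ x, jmp B f x = jmp B (N.indicator f) x + jmp B (Nᶜ.indicator f) x := by
      intro x
      by_cases hx : ∃ M ∈ insert N S, x ∈ M
      · obtain ⟨M, hM, hxM⟩ := hx
        obtain ⟨e', C', he', -, hCt', rfl, -⟩ := hS M hM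
        obtain ⟨t, ht, rfl⟩ := hxM
        rw [← jmp_add he' (e'.map_target (hCt' ht)) (h1.lc_ne _) (h2.lc_ne _)]
        exact jmp_congr (Eventually.of_forall hsum)
      · have hz : ∀ᶠ y in 𝓝 x, f y = 0 := by
          have : ∀ᶠ y in 𝓝 x, ∀ M ∈ insert N S, y ∉ M :=
            (Finset.eventually_all _).2 fun M hM =>
              (hS M hM).isClosed.isOpen_compl.mem_nhds fun hh => hx ⟨M, hM, hh⟩
          exact this.mono fun y hy => h y hy
        have hz' := hz.filter_mono (nhdsWithin_le_nhds (s := {x}ᶜ))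
        rw [jmp_of_zero hz', jmp_of_zero, jmp_of_zero, add_zero]
        · exact hz'.mono fun y hy => indicator_apply_eq_zero.2 fun _ => hy
        · exact hz'.mono fun y hy => indicator_apply_eq_zero.2 fun _ => hy
    rw [finsum_congr k3, finsum_add_distrib h1.support_finite h2.support_finite, k1, k2, add_zero]

/-- **Stokes mod 2.**  The jumps of a tame function with compact support add up to zero. -/
theorem stokes [T2Space X] {B K : Set X} (hK : IsCompact K)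
    (hch : ∀ x ∈ K, ∃ e : OpenPartialHomeomorph X ℝ≥0, x ∈ e.source ∧ IsCh B e)
    {f : X → ZMod 2} (hf : Tame B f) (h0 : ∀ x, x ∉ K → f x = 0) : ∑ᶠ x, jmp B f x = 0 := by
  classical
  have : ∀ x ∈ K, ∃ N, IsCell B N ∧ N ∈ 𝓝 x := fun x hx => by
    obtain ⟨e, h1, h2⟩ := hch x hx
    exact exists_cell h2 h1
  choose! N hN1 hN2 using this
  obtain ⟨t, ht, hcov⟩ := hK.elim_nhds_subcover N hN2
  refine cells (t.image N) (fun M hM => ?_) f hf fun x hx => h0 x fun hxK => ?_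
  · obtain ⟨x, hx, rfl⟩ := Finset.mem_image.1 hM
    exact hN1 x (ht x hx)
  · obtain ⟨y, hy, hxy⟩ := mem_iUnion₂.1 (hcov hxK)
    exact hx _ (Finset.mem_image_of_mem N hy) hxy

end Crest.Agent.X212.Par72
end

-- ▼ part X212/Par72/Main
section

/-! Parity theorems for 1-manifolds: boundary points, one-sided frontier points, facets of a
family with corners, ends (collars). -/

namespace Crest.Agent.X212.Par72

open Set Filter Topology
open scoped NNReal

variable {X : Type*} [TopologicalSpace X]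

theorem finite_of_isolated {K S : Set X} (hK : IsCompact K)
    (h : ∀ x ∈ K, ∃ p, ∀ᶠ y in 𝓝 x, y ∈ S → y = p) : (S ∩ K).Finite := by
  choose! p hp using h
  obtain ⟨t, -, hcov⟩ := hK.elim_nhds_subcover (fun x => {y | y ∈ S → y = p x}) hp
  refine (t.finite_toSet.image p).subset fun y hy => ?_
  obtain ⟨x, hx, hxy⟩ := mem_iUnion₂.1 (hcov hy.2)
  exact ⟨x, hx, (hxy hy.1).symm⟩

theorem IsCh.finite {B K : Set X} (hK : IsCompact K)
    (hch : ∀ x ∈ K, ∃ e : OpenPartialHomeomorph X ℝ≥0, x ∈ e.source ∧ IsCh B e) :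
    (B ∩ K).Finite := by
  refine finite_of_isolated hK fun x hx => ?_
  obtain ⟨e, h1, h2⟩ := hch x hx
  refine ⟨e.symm 0, ?_⟩
  filter_upwards [e.open_source.mem_nhds h1] with y hy hB
  rw [← (h2 y hy).1 hB, e.left_inv hy]

theorem neBot_of_chart {Y : Type*} [TopologicalSpace Y] (e : OpenPartialHomeomorph X Y) {x : X}
    (hx : x ∈ e.source) [(𝓝[≠] (e x)).NeBot] : (𝓝[≠] x).NeBot := by
  rw [← map_ne e hx]; infer_instance

/-- **General parity theorem.** `K` compact in a 1-manifold with boundary `B`, frontier of `K`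
inside a finite set `D` of interior points at which `K` is one-sided. -/
theorem even_general [T2Space X] {B K D : Set X} (hK : IsCompact K)
    (hch : ∀ x ∈ K, ∃ e : OpenPartialHomeomorph X ℝ≥0, x ∈ e.source ∧ IsCh B e)
    (hD : D.Finite) (hfr : frontier K ⊆ D) (hDB : Disjoint D B)
    (h1 : ∀ x ∈ D, ∃ᶠ y in 𝓝[≠] x, y ∈ K) (h2 : ∀ x ∈ D, ∃ᶠ y in 𝓝[≠] x, y ∉ K) :
    (B ∩ K).Finite ∧ Even (D.ncard + (B ∩ K).ncard) := by
  classical
  have hB := IsCh.finite hK hch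
  refine ⟨hB, ?_⟩
  let f : X → ZMod 2 := K.indicator fun _ => 1
  have hlc : ∀ x, x ∉ D → LC f x := fun x hx => by
    rcases lc_ite (fun h => hx (hfr h)) with h | h
    · exact lc_of_eventually (h.mono fun y hy => indicator_of_mem hy _)
    · exact lc_of_eventually (h.mono fun y hy => indicator_of_notMem hy _)
  have hout : ∀ x, x ∉ D ∪ B ∩ K → LC f x ∧ (x ∈ B → f x = 0) := fun x hx =>
    ⟨hlc x fun h => hx (Or.inl h), fun h => indicator_of_notMem (fun h' => hx (Or.inr ⟨h, h'⟩)) _⟩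
  have hfin : (D ∪ B ∩ K).Finite := hD.union hB
  have hf : Tame B f := hfin.subset fun x hx => by
    by_contra hc
    exact hx (hout x hc)
  have H := stokes hK hch hf fun x hx => indicator_of_notMem hx _
  have hin : ∀ x ∈ D ∪ B ∩ K, jmp B f x = 1 := by
    intro x hx
    refine jmp_of_not ?_
    rintro ⟨c, hc0, hc⟩
    rcases hx with hx | hx
    · obtain ⟨y, p, q⟩ := ((h1 x hx).and_eventually hc).exists
      obtain ⟨z, p', q'⟩ := ((h2 x hx).and_eventually hc).exists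
      have a1 : f y = 1 := indicator_of_mem p _
      have a2 : f z = 0 := indicator_of_notMem p' _
      exact absurd (a1.symm.trans (q.trans (q'.symm.trans a2))) (by decide)
    · obtain ⟨e, he1, -⟩ := hch x hx.2
      have := neBot_of_chart e he1
      have hl := hlc x fun h => disjoint_left.1 hDB h hx.1
      obtain ⟨y, p, q⟩ := (hc.and (hl.filter_mono nhdsWithin_le_nhds)).exists
      have a1 : f x = 1 := indicator_of_mem hx.2 _
      exact absurd (a1.symm.trans (q.symm.trans (p.trans (hc0 hx.1)))) (by decide)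
  rw [finsum_eq_sum_of_support_subset (s := hfin.toFinset), Finset.sum_congr rfl
    (fun x hx => hin x (hfin.mem_toFinset.1 hx))] at H
  · rw [← ncard_union_eq (hDB.mono_right inter_subset_left) hD hB,
      ncard_eq_toFinset_card _ hfin, ← ZMod.natCast_eq_zero_iff_even]
    simpa using H
  · intro x hx
    by_contra hc
    have := hout x fun h => hc (by simpa using h)
    exact hx (jmp_of_lc this.1 this.2)

/-- a compact 1-manifold with boundary has an even number of boundary points. -/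
theorem even_boundary [T2Space X] [CompactSpace X] {B : Set X}
    (hch : ∀ x, ∃ e : OpenPartialHomeomorph X ℝ≥0, x ∈ e.source ∧ IsCh B e) :
    B.Finite ∧ Even B.ncard := by
  simpa using even_general (B := B) (K := univ) (D := ∅) isCompact_univ (fun x _ => hch x)
    finite_empty (by simp) (by simp) (by simp) (by simp)

/-! ### charts with values in `ℝ` -/

theorem isOpenEmbedding_expN : IsOpenEmbedding fun t : ℝ => (⟨Real.exp t, (Real.exp_pos t).le⟩ : ℝ≥0) := by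
  refine IsOpenEmbedding.of_isEmbedding_isOpenMap
    (IsEmbedding.of_comp (g := ((↑) : ℝ≥0 → ℝ)) (by fun_prop) NNReal.continuous_coe
      Real.isOpenEmbedding_exp.isEmbedding) fun s hs => ?_
  have := (Real.isOpenEmbedding_exp.isOpenMap s hs).preimage NNReal.continuous_coe
  have e : (fun t : ℝ => (⟨Real.exp t, (Real.exp_pos t).le⟩ : ℝ≥0)) '' s
      = ((↑) : ℝ≥0 → ℝ) ⁻¹' (Real.exp '' s) := by
    ext u
    constructor
    · rintro ⟨t, ht, rfl⟩
      exact ⟨t, ht, rfl⟩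
    · rintro ⟨t, ht, h⟩
      exact ⟨t, ht, NNReal.eq h⟩
  rw [e]
  exact this

/-- a chart with values in `ℝ` that avoids `B` gives a half-line chart. -/
theorem isCh_of_real {B : Set X} (e : OpenPartialHomeomorph X ℝ) (hB : Disjoint e.source B) :
    ∃ e' : OpenPartialHomeomorph X ℝ≥0, e'.source = e.source ∧ IsCh B e' := by
  refine ⟨e.trans (isOpenEmbedding_expN.toOpenPartialHomeomorph _), by simp, fun y hy => ?_⟩
  have hy' : y ∈ e.source := by simpa using hy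
  refine iff_of_false (disjoint_left.1 hB hy') fun h => ?_
  exact (Real.exp_pos (e y)).ne' (congrArg NNReal.toReal h)

/-- boundaryless version: `K` compact, one-sided at the points of a finite set `D` containing
its frontier. -/
theorem even_frontier [T2Space X] {K D : Set X} (hK : IsCompact K)
    (hch : ∀ x ∈ K, ∃ e : OpenPartialHomeomorph X ℝ, x ∈ e.source)
    (hD : D.Finite) (hfr : frontier K ⊆ D)
    (h1 : ∀ x ∈ D, ∃ᶠ y in 𝓝[≠] x, y ∈ K) (h2 : ∀ x ∈ D, ∃ᶠ y in 𝓝[≠] x, y ∉ K) :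
    Even D.ncard := by
  have := (even_general (B := ∅) hK (fun x hx => by
    obtain ⟨e, he⟩ := hch x hx
    obtain ⟨e', p, q⟩ := isCh_of_real (B := ∅) e (by simp)
    exact ⟨e', p ▸ he, q⟩) hD hfr (by simp) h1 h2).2
  simpa using this

/-- `τ` is a local coordinate of `X` at `x` (a transverse level). -/
def Tr (τ : X → ℝ) (x : X) : Prop :=
  ∃ e : OpenPartialHomeomorph X ℝ, x ∈ e.source ∧ ∀ᶠ y in 𝓝 x, τ y = e y

theorem Tr.eventually_ne {τ : X → ℝ} {x : X} (h : Tr τ x) : ∀ᶠ y in 𝓝 x, τ y = τ x → y = x := by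
  obtain ⟨e, hx, h⟩ := h
  have h0 := h.self_of_nhds
  filter_upwards [h, e.open_source.mem_nhds hx] with y a b c
  exact e.injOn b hx (by rw [← a, c, h0])

theorem Tr.frequently {τ : X → ℝ} {x : X} (h : Tr τ x) {s : Set ℝ}
    (hs : ∃ᶠ t in 𝓝[≠] (τ x), t ∈ s) : ∃ᶠ y in 𝓝[≠] x, τ y ∈ s := by
  obtain ⟨e, hx, h⟩ := h
  have h0 := h.self_of_nhds
  have hm := map_ne e.symm (e.map_source hx)
  rw [e.left_inv hx, e.symm_symm] at hm
  rw [h0, ← hm, frequently_map] at hs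
  exact (hs.and_eventually (h.filter_mono nhdsWithin_le_nhds)).mono fun y hy => hy.2 ▸ hy.1

theorem Tr.freq_gt {τ : X → ℝ} {x : X} (h : Tr τ x) : ∃ᶠ y in 𝓝[≠] x, τ x < τ y :=
  h.frequently (s := Ioi (τ x)) ((Eventually.frequently (f := 𝓝[>] (τ x))
    self_mem_nhdsWithin).filter_mono (nhdsGT_le_nhdsNE _))

theorem Tr.freq_lt {τ : X → ℝ} {x : X} (h : Tr τ x) : ∃ᶠ y in 𝓝[≠] x, τ y < τ x :=
  h.frequently (s := Iio (τ x)) ((Eventually.frequently (f := 𝓝[<] (τ x))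
    self_mem_nhdsWithin).filter_mono (nhdsLT_le_nhdsNE _))

theorem Tr.congr {τ σ : X → ℝ} {x : X} (h : Tr τ x) (h' : ∀ᶠ y in 𝓝 x, σ y = τ y) : Tr σ x := by
  obtain ⟨e, hx, h⟩ := h
  exact ⟨e, hx, by filter_upwards [h, h'] with y a b; rw [b, a]⟩

/-- an affine change of a local coordinate. -/
theorem Tr.affine {τ : X → ℝ} {x : X} (h : Tr τ x) {a : ℝ} (ha : a ≠ 0) (b : ℝ) :
    Tr (fun y => a * τ y + b) x := by
  obtain ⟨e, hx, h⟩ := h
  refine ⟨e.trans ((Homeomorph.mulLeft₀ a ha).trans (Homeomorph.addRight b)).toOpenPartialHomeomorph,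
    by simpa using hx, h.mono fun y hy => ?_⟩
  simp [hy]

/-- transport of a local coordinate along a local homeomorphism. -/
theorem Tr.comp {Y : Type*} [TopologicalSpace Y] {τ : Y → ℝ} (ψ : OpenPartialHomeomorph X Y) {x : X}
    (hx : x ∈ ψ.source) (h : Tr τ (ψ x)) : Tr (fun y => τ (ψ y)) x := by
  obtain ⟨e, hx', h⟩ := h
  exact ⟨ψ.trans e, ⟨hx, hx'⟩, (ψ.continuousAt hx).eventually h⟩

/-- **Facets.**  `K = {∀ i, 0 ≤ τ i}` compact in a 1-manifold, no point of `K` on two facets,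
facets transverse: the facet sets are finite and their total number of points is even. -/
theorem even_facets [T2Space X] {ι : Type*} [Fintype ι] (τ : ι → X → ℝ)
    (hK : IsCompact {x | ∀ i, 0 ≤ τ i x})
    (hc : ∀ x, (∀ i, 0 ≤ τ i x) → ∀ i, ContinuousAt (τ i) x)
    (hch : ∀ x, (∀ i, 0 < τ i x) → ∃ e : OpenPartialHomeomorph X ℝ, x ∈ e.source)
    (hcor : ∀ x, (∀ i, 0 ≤ τ i x) → ∀ i j, τ i x = 0 → τ j x = 0 → i = j)
    (htr : ∀ x, (∀ i, 0 ≤ τ i x) → ∀ i, τ i x = 0 → Tr (τ i) x) :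
    (∀ i, {x | (∀ j, 0 ≤ τ j x) ∧ τ i x = 0}.Finite) ∧
      Even (∑ i, {x | (∀ j, 0 ≤ τ j x) ∧ τ i x = 0}.ncard) := by
  classical
  set K := {x | ∀ i, 0 ≤ τ i x} with hKd
  have hfin : ∀ i, {x | (∀ j, 0 ≤ τ j x) ∧ τ i x = 0}.Finite := fun i => by
    refine (finite_of_isolated (S := {x | τ i x = 0}) hK fun x hx => ⟨x, ?_⟩).subset
      fun x hx => ⟨hx.2, hx.1⟩
    by_cases h : τ i x = 0
    · exact (htr x hx i h).eventually_ne.mono fun y hy hy' => hy (by rw [h]; exact hy')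
    · exact ((hc x hx i).eventually_ne h).mono fun y hy hy' => absurd hy' hy
  refine ⟨hfin, ?_⟩
  let D : Set X := ⋃ i, {x | (∀ j, 0 ≤ τ j x) ∧ τ i x = 0}
  have hD : D.Finite := finite_iUnion hfin
  have hpos : ∀ x ∈ K, x ∉ D → ∀ i, 0 < τ i x := fun x hx h i =>
    lt_of_le_of_ne (hx i) fun e => h (mem_iUnion.2 ⟨i, hx, e.symm⟩)
  have hev : Even D.ncard := by
    refine even_frontier hK (fun x hx => ?_) hD (fun x hx => ?_) (fun x hx => ?_) (fun x hx => ?_)
    · by_cases h : x ∈ D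
      · obtain ⟨i, h1, h2⟩ := mem_iUnion.1 h
        obtain ⟨e, he, -⟩ := htr x h1 i h2
        exact ⟨e, he⟩
      · exact hch x (hpos x hx h)
    · rw [hK.isClosed.frontier_eq] at hx
      by_contra h
      refine hx.2 (mem_interior_iff_mem_nhds.2 ?_)
      have : ∀ᶠ y in 𝓝 x, ∀ i, 0 < τ i y :=
        eventually_all.2 fun i => (hc x hx.1 i).eventually (lt_mem_nhds (hpos x hx.1 h i))
      exact this.mono fun y hy i => (hy i).le
    · obtain ⟨i, h1, h2⟩ := mem_iUnion.1 hx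
      have : ∀ᶠ y in 𝓝 x, ∀ j, j ≠ i → 0 < τ j y := eventually_all.2 fun j => by
        by_cases hj : j = i
        · exact Eventually.of_forall fun _ h => absurd hj h
        · have : 0 < τ j x := lt_of_le_of_ne (h1 j) fun e => hj (hcor x h1 j i e.symm h2)
          exact ((hc x h1 j).eventually (lt_mem_nhds this)).mono fun y hy _ => hy
      refine ((htr x h1 i h2).freq_gt.and_eventually (this.filter_mono nhdsWithin_le_nhds)).mono
        fun y hy j => ?_
      by_cases hj : j = i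
      · rw [hj, ← h2]; exact hy.1.le
      · exact (hy.2 j hj).le
    · obtain ⟨i, h1, h2⟩ := mem_iUnion.1 hx
      exact (htr x h1 i h2).freq_lt.mono fun y hy hyK => not_lt.2 (hyK i) (h2 ▸ hy)
  have hcard : D.ncard = ∑ i, {x | (∀ j, 0 ≤ τ j x) ∧ τ i x = 0}.ncard := by
    rw [ncard_iUnion_of_finite hfin, finsum_eq_sum_of_fintype]
    intro i j hij
    exact disjoint_left.2 fun x h1 h2 => hij (hcor x h1.1 i j h1.2 h2.2)
  exact hcard ▸ hev

/-- **Cobordism invariance of a mod 2 count** along one parameter `t`. -/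
theorem fibre_modEq [T2Space X] (t : X → ℝ) {a b : ℝ} (hab : a < b)
    (hK : IsCompact (t ⁻¹' Icc a b)) (hc : ∀ x, t x ∈ Icc a b → ContinuousAt t x)
    (hch : ∀ x, t x ∈ Ioo a b → ∃ e : OpenPartialHomeomorph X ℝ, x ∈ e.source)
    (htr : ∀ x, t x = a ∨ t x = b → Tr t x) :
    (t ⁻¹' {a}).Finite ∧ (t ⁻¹' {b}).Finite ∧ (t ⁻¹' {a}).ncard ≡ (t ⁻¹' {b}).ncard [MOD 2] := by
  let τ : Bool → X → ℝ := fun i x => if i then 1 * t x + -a else -1 * t x + b
  have hiff : ∀ x, (∀ i, 0 ≤ τ i x) ↔ t x ∈ Icc a b := fun x => by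
    simp only [τ, Bool.forall_bool, mem_Icc, if_true, Bool.false_eq_true, if_false]
    constructor <;> rintro ⟨p, q⟩ <;> constructor <;> linarith
  have H := even_facets τ (by simp only [hiff]; exact hK)
    (fun x hx i => by
      have := hc x ((hiff x).1 hx)
      cases i <;> simp only [τ, if_true, Bool.false_eq_true, if_false] <;> fun_prop)
    (fun x hx => hch x (by
      have p := hx true
      have q := hx false
      simp only [τ, if_true, Bool.false_eq_true, if_false] at p q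
      constructor <;> linarith))
    (fun x _ i j => by
      cases i <;> cases j <;> simp only [τ, if_true, Bool.false_eq_true, if_false] <;>
        intro p q <;> first | trivial | (exfalso; linarith))
    (fun x _ i h => by
      cases i <;> simp only [τ, if_true, Bool.false_eq_true, if_false] at h ⊢
      · exact (htr x (Or.inr (by linarith))).affine (by norm_num) _
      · exact (htr x (Or.inl (by linarith))).affine one_ne_zero _)
  have e1 : {x | (∀ j, 0 ≤ τ j x) ∧ τ true x = 0} = t ⁻¹' {a} := by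
    ext x
    simp only [mem_ofPred_eq, hiff, τ, if_true, mem_preimage, mem_singleton_iff, mem_Icc]
    constructor
    · rintro ⟨-, h⟩; linarith
    · intro h; exact ⟨⟨by linarith, by linarith⟩, by linarith⟩
  have e2 : {x | (∀ j, 0 ≤ τ j x) ∧ τ false x = 0} = t ⁻¹' {b} := by
    ext x
    simp only [mem_ofPred_eq, hiff, τ, Bool.false_eq_true, if_false, mem_preimage,
      mem_singleton_iff, mem_Icc]
    constructor
    · rintro ⟨-, h⟩; linarith
    · intro h; exact ⟨⟨by linarith, by linarith⟩, by linarith⟩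
  obtain ⟨H1, H2⟩ := H
  rw [Fintype.sum_bool, e1, e2] at H2
  refine ⟨e1 ▸ H1 true, e2 ▸ H1 false, ?_⟩
  obtain ⟨k, hk⟩ := H2
  unfold Nat.ModEq
  omega

/-- **Ends.**  A 1-manifold with boundary `B` and finitely many proper ends `c i ⁻¹ [T i, ∞)` whose
complement is compact: `#ends + #B` is even. -/
theorem even_ends [T2Space X] {B : Set X} {ι : Type*} [Finite ι]
    (hch : ∀ x, ∃ e : OpenPartialHomeomorph X ℝ≥0, x ∈ e.source ∧ IsCh B e)
    (c : ι → OpenPartialHomeomorph X ℝ) (T : ι → ℝ) (hT : ∀ i, Ici (T i) ⊆ (c i).target)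
    (hB : ∀ i, Disjoint (c i).source B)
    (hdis : Pairwise fun i j => Disjoint (c i).source (c j).source)
    (hcl : ∀ i, IsClosed ((c i).symm '' Ici (T i)))
    (hK : IsCompact (⋃ i, (c i).symm '' Ioi (T i))ᶜ) :
    B.Finite ∧ Even (Nat.card ι + B.ncard) := by
  set K := (⋃ i, (c i).symm '' Ioi (T i))ᶜ with hKd
  let p : ι → X := fun i => (c i).symm (T i)
  have hp : ∀ i, p i ∈ (c i).source := fun i => (c i).map_target (hT i self_mem_Ici)
  have hpc : ∀ i, c i (p i) = T i := fun i => (c i).right_inv (hT i self_mem_Ici)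
  have hinj : Function.Injective p := fun i j h => by
    by_contra hc
    exact disjoint_left.1 (hdis hc) (hp i) (h ▸ hp j)
  have hBK : B ∩ K = B := inter_eq_left.2 fun x hx hc => by
    obtain ⟨i, s, hs, rfl⟩ := mem_iUnion.1 hc
    exact disjoint_left.1 (hB i) ((c i).map_target (hT i (Ioi_subset_Ici_self hs))) hx
  have htr : ∀ i, Tr (c i) (p i) := fun i => ⟨c i, hp i, Eventually.of_forall fun _ => rfl⟩
  have H := even_general (B := B) (D := range p) hK (fun x _ => hch x) (finite_range p)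
    (fun x hx => by
      have h1 : x ∈ K := hK.isClosed.frontier_subset hx
      rw [hKd, frontier_compl] at hx
      have h2 : closure (⋃ i, (c i).symm '' Ioi (T i)) ⊆ ⋃ i, (c i).symm '' Ici (T i) :=
        closure_minimal (iUnion_mono fun i => image_mono Ioi_subset_Ici_self)
          (isClosed_iUnion_of_finite hcl)
      obtain ⟨i, s, hs, rfl⟩ := mem_iUnion.1 (h2 hx.1)
      rcases eq_or_lt_of_le (show T i ≤ s from hs) with rfl | h
      · exact ⟨i, rfl⟩
      · exact (h1 (mem_iUnion.2 ⟨i, s, h, rfl⟩)).elim)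
    (disjoint_left.2 (by rintro _ ⟨i, rfl⟩; exact disjoint_left.1 (hB i) (hp i)))
    (by
      rintro _ ⟨i, rfl⟩
      refine ((htr i).freq_lt.and_eventually (nhdsWithin_le_nhds
        ((c i).open_source.mem_nhds (hp i)))).mono fun y hy hc => ?_
      obtain ⟨j, s, hs, rfl⟩ := mem_iUnion.1 hc
      have hsj : s ∈ (c j).target := hT j (Ioi_subset_Ici_self hs)
      by_cases hij : i = j
      · subst hij
        have := hy.1
        rw [(c i).right_inv hsj, hpc] at this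
        exact lt_asymm this hs
      · exact disjoint_left.1 (hdis hij) hy.2 ((c j).map_target hsj))
    (by
      rintro _ ⟨i, rfl⟩
      refine ((htr i).freq_gt.and_eventually (nhdsWithin_le_nhds
        ((c i).open_source.mem_nhds (hp i)))).mono fun y hy hc => ?_
      exact hc (mem_iUnion.2 ⟨i, c i y, hpc i ▸ hy.1, (c i).left_inv hy.2⟩))
  rw [hBK, ncard_range_of_injective hinj] at H
  exact H

end Crest.Agent.X212.Par72
end

-- ▼ part X212/Par72/Reg
section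

/-! Charts of regular zero sets in Banach spaces, and the centre-only form of the boundary
parity theorem. -/

namespace Crest.Agent.X212.Par72

open Set Filter Topology Function
open scoped NNReal

section Banach

variable {E F R : Type*} [NormedAddCommGroup E] [NormedSpace ℝ E] [CompleteSpace E]
  [NormedAddCommGroup F] [NormedSpace ℝ F] [CompleteSpace F]
  [NormedAddCommGroup R] [NormedSpace ℝ R] [CompleteSpace R]

/-- If `(G', τ')` is bijective then `τ` is a chart of any set `S` that is `{G = 0}` near `x`. -/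
theorem chart_of_bij {G : E → F} {τ : E → R} {x : E} {G' : E →L[ℝ] F} {τ' : E →L[ℝ] R}
    (hG : HasStrictFDerivAt G G' x) (hτ : HasStrictFDerivAt τ τ' x)
    (hb : Bijective (G'.prod τ')) {S : Set E} (hx : x ∈ S)
    (hS : ∀ᶠ y in 𝓝 x, y ∈ S ↔ G y = 0) :
    ∃ e : OpenPartialHomeomorph S R, ⟨x, hx⟩ ∈ e.source ∧ ∀ y : S, e y = τ y := by
  classical
  let L : E ≃L[ℝ] F × R := ContinuousLinearEquiv.ofBijective (G'.prod τ')
    (LinearMap.ker_eq_bot.2 hb.1) (LinearMap.range_eq_top.2 hb.2)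
  have hΦ : HasStrictFDerivAt (fun y => (G y, τ y)) (L : E →L[ℝ] F × R) x := hG.prodMk hτ
  obtain ⟨V, hV, hVo, hxV⟩ := eventually_nhds_iff.1 hS
  let φ := (hΦ.toOpenPartialHomeomorph _).restrOpen V hVo
  have hφ : ∀ y, φ y = (G y, τ y) := fun _ => rfl
  have hφV : ∀ y ∈ φ.source, (y ∈ S ↔ G y = 0) := fun y hy => hV y hy.2
  have hmem : ∀ t, ((0 : F), t) ∈ φ.target → φ.symm (0, t) ∈ S := fun t ht =>
    (hφV _ (φ.map_target ht)).2 (congrArg Prod.fst ((hφ _).symm.trans (φ.right_inv ht)))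
  have hval : ∀ y : S, y.1 ∈ φ.source → φ y = (0, τ y) := fun y hy => by
    rw [hφ, (hφV _ hy).1 y.2]
  let inv : R → S := fun t => if h : ((0 : F), t) ∈ φ.target then ⟨_, hmem t h⟩ else ⟨x, hx⟩
  have hinv : ∀ t, ((0 : F), t) ∈ φ.target → (inv t).1 = φ.symm (0, t) := fun t ht => by
    simp only [inv, dif_pos ht]
  refine ⟨{ toFun := fun y => τ y
            invFun := inv
            source := Subtype.val ⁻¹' φ.source
            target := {t | ((0 : F), t) ∈ φ.target}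
            map_source' := fun y hy => ?_
            map_target' := fun t ht => ?_
            left_inv' := fun y hy => ?_
            right_inv' := fun t ht => ?_
            open_source := φ.open_source.preimage continuous_subtype_val
            open_target := φ.open_target.preimage (by fun_prop)
            continuousOn_toFun := ?_
            continuousOn_invFun := ?_ }, ⟨hΦ.mem_toOpenPartialHomeomorph_source, hxV⟩, fun _ => rfl⟩
  · have := φ.map_source hy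
    rwa [hval y hy] at this
  · show (inv t).1 ∈ φ.source
    rw [hinv t ht]; exact φ.map_target ht
  · have h1 := φ.map_source hy
    rw [hval y hy] at h1
    apply Subtype.ext
    rw [hinv _ h1, ← hval y hy, φ.left_inv hy]
  · show τ (inv t).1 = t
    rw [hinv t ht]
    exact congrArg Prod.snd ((hφ _).symm.trans (φ.right_inv ht))
  · exact (continuous_snd.comp_continuousOn φ.continuousOn).comp
      continuous_subtype_val.continuousOn fun _ h => h
  · rw [IsInducing.subtypeVal.continuousOn_iff]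
    refine ContinuousOn.congr (f := fun t => φ.symm (0, t)) ?_ fun t ht => hinv t ht
    exact φ.continuousOn_symm.comp (by fun_prop) fun _ h => h

/-- the one-dimensional case: `τ` is a transverse level of `S` at `x`. -/
theorem tr_of_bij {G : E → F} {τ : E → ℝ} {x : E} {G' : E →L[ℝ] F} {τ' : E →L[ℝ] ℝ}
    (hG : HasStrictFDerivAt G G' x) (hτ : HasStrictFDerivAt τ τ' x)
    (hb : Bijective (G'.prod τ')) {S : Set E} (hx : x ∈ S)
    (hS : ∀ᶠ y in 𝓝 x, y ∈ S ↔ G y = 0) : Tr (fun y : S => τ y) ⟨x, hx⟩ := by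
  obtain ⟨e, h1, h2⟩ := chart_of_bij hG hτ hb hx hS
  exact ⟨e, h1, Eventually.of_forall fun y => (h2 y).symm⟩

omit [CompleteSpace E] [CompleteSpace F] in
theorem bij_of_ker {G' : E →L[ℝ] F} {τ' : E →L[ℝ] ℝ} (hs : Surjective G')
    (hk : Module.finrank ℝ (G' : E →ₗ[ℝ] F).ker = 1) {v : E} (hv : G' v = 0) (hτ : τ' v ≠ 0) :
    Bijective (G'.prod τ') := by
  have hv0 : (⟨v, hv⟩ : (G' : E →ₗ[ℝ] F).ker) ≠ 0 := fun h =>
    hτ (by rw [show v = 0 from congrArg Subtype.val h, map_zero])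
  have hspan := (finrank_eq_one_iff_of_nonzero' _ hv0).1 hk
  constructor
  · rw [injective_iff_map_eq_zero]
    intro w hw
    obtain ⟨c, hc⟩ := hspan ⟨w, congrArg Prod.fst hw⟩
    have hc' : c • v = w := congrArg Subtype.val hc
    have h2 : τ' w = 0 := congrArg Prod.snd hw
    rw [← hc', map_smul, smul_eq_mul, mul_eq_zero] at h2
    rw [← hc', h2.resolve_right hτ, zero_smul]
  · rintro ⟨f, t⟩
    obtain ⟨w, rfl⟩ := hs f
    refine ⟨w + ((t - τ' w) / τ' v) • v, ?_⟩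
    rw [ContinuousLinearMap.prod_apply]
    simp only [map_add, map_smul, hv, smul_zero, add_zero, smul_eq_mul, Prod.mk.injEq, true_and]
    field_simp
    ring

omit [CompleteSpace E] [CompleteSpace F] in
/-- regularity of the facet problem (`G'` onto on `ker τ'`) gives transversality. -/
theorem bij_of_facet {G' : E →L[ℝ] F} {τ' : E →L[ℝ] ℝ} (hτ : τ' ≠ 0)
    (hs : ∀ f, ∃ w, τ' w = 0 ∧ G' w = f)
    (hk : Module.finrank ℝ (G' : E →ₗ[ℝ] F).ker = 1) : Bijective (G'.prod τ') := by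
  obtain ⟨u, hu⟩ : ∃ u, τ' u ≠ 0 := by
    by_contra h
    exact hτ (ContinuousLinearMap.ext fun u => by simpa using not_exists.1 h u)
  obtain ⟨w, h1, h2⟩ := hs (G' u)
  refine bij_of_ker (v := u - w) (fun f => ?_) hk (by rw [map_sub, h2, sub_self])
    (by rwa [map_sub, h1, sub_zero])
  obtain ⟨w, -, h⟩ := hs f
  exact ⟨w, h⟩

omit [CompleteSpace E] [CompleteSpace F] in
/-- the facet problem has bijective linearisation (index 0, regular): transversality, with no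
dimension count. -/
theorem bij_of_facet' {G' : E →L[ℝ] F} {τ' : E →L[ℝ] ℝ} (hτ : τ' ≠ 0)
    (hs : ∀ f, ∃ w, τ' w = 0 ∧ G' w = f) (hi : ∀ w, τ' w = 0 → G' w = 0 → w = 0) :
    Bijective (G'.prod τ') := by
  obtain ⟨u, hu⟩ : ∃ u, τ' u ≠ 0 := by
    by_contra h
    exact hτ (ContinuousLinearMap.ext fun u => by simpa using not_exists.1 h u)
  constructor
  · rw [injective_iff_map_eq_zero]
    exact fun w hw => hi w (congrArg Prod.snd hw) (congrArg Prod.fst hw)
  · rintro ⟨f, t⟩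
    obtain ⟨w, h1, h2⟩ := hs (f - (t / τ' u) • G' u)
    refine ⟨w + (t / τ' u) • u, ?_⟩
    rw [ContinuousLinearMap.prod_apply]
    simp only [map_add, map_smul, h1, h2, smul_eq_mul, Prod.mk.injEq, sub_add_cancel, zero_add,
      true_and]
    field_simp

/-- regular point with one-dimensional kernel: the zero set has a chart with values in `ℝ`. -/
theorem chart_of_ker {G : E → F} {x : E} {G' : E →L[ℝ] F} (hG : HasStrictFDerivAt G G' x)
    (hs : Surjective G') (hk : Module.finrank ℝ (G' : E →ₗ[ℝ] F).ker = 1) {S : Set E} (hx : x ∈ S)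
    (hS : ∀ᶠ y in 𝓝 x, y ∈ S ↔ G y = 0) :
    ∃ e : OpenPartialHomeomorph S ℝ, ⟨x, hx⟩ ∈ e.source := by
  obtain ⟨v, hv, -⟩ := finrank_eq_one_iff'.1 hk
  obtain ⟨τ', hτ⟩ := SeparatingDual.exists_ne_zero (R := ℝ) (x := v.1) fun h => hv (Subtype.ext h)
  obtain ⟨e, h, -⟩ := chart_of_bij hG τ'.hasStrictFDerivAt (bij_of_ker hs hk v.2 hτ) hx hS
  exact ⟨e, h⟩

/-- regular point of index 0: isolated zero. -/
theorem isolated_of_bij {G : E → F} {x : E} {G' : E →L[ℝ] F} (hG : HasStrictFDerivAt G G' x)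
    (hb : Bijective G') : ∀ᶠ y in 𝓝 x, G y = G x → y = x := by
  let L : E ≃L[ℝ] F := ContinuousLinearEquiv.ofBijective G'
    (LinearMap.ker_eq_bot.2 hb.1) (LinearMap.range_eq_top.2 hb.2)
  have hΦ : HasStrictFDerivAt G (L : E →L[ℝ] F) x := hG
  filter_upwards [(hΦ.toOpenPartialHomeomorph _).open_source.mem_nhds
    hΦ.mem_toOpenPartialHomeomorph_source] with y hy h
  exact (hΦ.toOpenPartialHomeomorph _).injOn hy hΦ.mem_toOpenPartialHomeomorph_source h

end Banach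

variable {X : Type*} [TopologicalSpace X]

/-- invariance of the boundary in dimension one. -/
theorem chart_zero_iff [T1Space X] {e e' : OpenPartialHomeomorph X ℝ≥0} {x : X}
    (hx : x ∈ e.source) (hx' : x ∈ e'.source) (h : e x = 0) : e' x = 0 := by
  classical
  by_contra hne
  let f : X → ZMod 2 := fun y => if e' x < e' y then 1 else 0
  have hlc : ∀ᶠ y in 𝓝[≠] x, LC f y := by
    filter_upwards [nhdsWithin_le_nhds (e'.open_source.mem_nhds hx'), self_mem_nhdsWithin]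
      with y a b
    have hne' : e' y ≠ e' x := fun hh => b (e'.injOn a hx' hh)
    rcases lt_or_gt_of_ne hne' with hl | hl
    · refine lc_of_eventually (c := 0) ?_
      filter_upwards [(e'.continuousAt a).eventually (gt_mem_nhds hl)] with z hz
      simp only [f, if_neg (not_lt.2 hz.le)]
    · refine lc_of_eventually (c := 1) ?_
      filter_upwards [(e'.continuousAt a).eventually (lt_mem_nhds hl)] with z hz
      simp only [f, if_pos hz]
  obtain ⟨a, b, -, -, hb⟩ := sides (lc_ne_chart e hx hlc)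
  have h1 : jmp (∅ : Set X) f x = 0 := by
    refine jmp_of_good ⟨b, fun hh => hh.elim, ?_⟩
    rw [← map_ne e hx, eventually_map, ← nhdsLT_sup_nhdsGT, eventually_sup]
    refine ⟨?_, hb⟩
    filter_upwards [self_mem_nhdsWithin] with s hs
    exact absurd (h ▸ hs) (not_lt.2 (zero_le (a := s)))
  have ht : ∀ᶠ s in 𝓝 (e' x), e' (e'.symm s) = s := e'.eventually_right_inverse' hx'
  rw [jmp_chart (B' := {0}) e' hx' (iff_of_false (notMem_empty x) hne),
    jmp_eq (a := 0) (b := 1) (fun _ => rfl)] at h1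
  · exact absurd h1 (by decide)
  · filter_upwards [nhdsWithin_le_nhds ht, self_mem_nhdsWithin] with s p q
    simp only [f, p, if_neg (not_lt.2 (le_of_lt (show s < e' x from q)))]
  · filter_upwards [nhdsWithin_le_nhds ht, self_mem_nhdsWithin] with s p q
    simp only [f, p, if_pos (show e' x < s from q)]

/-- charts known only at their centres: a half-line chart vanishing at each point of `B`, a line
chart at each other point. -/
theorem isCh_of_centre [T1Space X] {B : Set X}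
    (h1 : ∀ x ∈ B, ∃ e : OpenPartialHomeomorph X ℝ≥0, x ∈ e.source ∧ e x = 0)
    (h2 : ∀ x ∉ B, ∃ e : OpenPartialHomeomorph X ℝ, x ∈ e.source) (x : X) :
    ∃ e : OpenPartialHomeomorph X ℝ≥0, x ∈ e.source ∧ IsCh B e := by
  have h2' : ∀ x ∉ B, ∃ e : OpenPartialHomeomorph X ℝ≥0, x ∈ e.source ∧ e x ≠ 0 := fun x hx => by
    obtain ⟨e, he⟩ := h2 x hx
    obtain ⟨e', p, q⟩ := isCh_of_real (B := ∅) e (by simp)
    exact ⟨e', p ▸ he, fun h => (q x (p ▸ he)).2 h⟩
  have key : ∀ e : OpenPartialHomeomorph X ℝ≥0, IsCh B e := fun e y hy => by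
    constructor
    · intro hB
      obtain ⟨e', p, q⟩ := h1 y hB
      exact chart_zero_iff p hy q
    · intro h0
      by_contra hB
      obtain ⟨e', p, q⟩ := h2' y hB
      exact q (chart_zero_iff hy p h0)
  by_cases hx : x ∈ B
  · obtain ⟨e, p, -⟩ := h1 x hx
    exact ⟨e, p, key e⟩
  · obtain ⟨e, p, -⟩ := h2' x hx
    exact ⟨e, p, key e⟩

/-- boundary parity from charts at the centres. -/
theorem even_boundary' [T2Space X] [CompactSpace X] {B : Set X}
    (h1 : ∀ x ∈ B, ∃ e : OpenPartialHomeomorph X ℝ≥0, x ∈ e.source ∧ e x = 0)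
    (h2 : ∀ x ∉ B, ∃ e : OpenPartialHomeomorph X ℝ, x ∈ e.source) : B.Finite ∧ Even B.ncard :=
  even_boundary (isCh_of_centre h1 h2)

end Crest.Agent.X212.Par72
end

-- ▼ part X212/Slc61/Chart
section

/-! Charts of the moduli space `Mod G Z` at regular points. -/

set_option autoImplicit false
set_option linter.unusedSectionVars false

noncomputable section

open Set Filter Topology Function

namespace Crest.Agent.X212.Slc61

variable {G : Type*} [Group G] {C : Type*} [NormedAddCommGroup C] [NormedSpace ℝ C]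
  [CompleteSpace C] [MulAction G C] [ContinuousConstSMul G C]
  {L H E R : Type*} [NormedAddCommGroup L] [NormedSpace ℝ L] [CompleteSpace L]
  [NormedAddCommGroup H] [NormedSpace ℝ H] [CompleteSpace H]
  [NormedAddCommGroup E] [NormedSpace ℝ E] [CompleteSpace E]
  [NormedAddCommGroup R] [NormedSpace ℝ R] [CompleteSpace R] {x₀ : C}

namespace SliceData

variable (D : SliceData G L H x₀)

/-- **Chart of the moduli space.** If `(F', σ, τ')` is bijective, `τ` restricted to the slice is a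
chart of `Mod G Z` at the class of `x₀`. -/
theorem chart {Z : Set C} (hZ : Inv G Z) (h0 : x₀ ∈ Z) {F : C → E} {F' : C →L[ℝ] E}
    (hF : HasStrictFDerivAt F F' x₀) (hl : ∀ᶠ y in 𝓝 x₀, y ∈ Z ↔ F y = 0)
    {τ : C → R} {τ' : C →L[ℝ] R} (hτ : HasStrictFDerivAt τ τ' x₀)
    (hb : Bijective ((F'.prod D.σ).prod τ')) :
    ∃ e : OpenPartialHomeomorph (Mod G Z) R, cls G ⟨x₀, h0⟩ ∈ e.source ∧
      ∀ m ∈ e.source, ∃ y : Z, cls G y = m ∧ D.γ y = 0 ∧ e m = τ y := by
  obtain ⟨T⟩ := D.exists_tslice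
  have hx : x₀ ∈ Z ∩ (D.S ∩ T.V) := ⟨h0, D.mem_S, T.mem⟩
  have hS : ∀ᶠ y in 𝓝 x₀, y ∈ Z ∩ (D.S ∩ T.V) ↔ (F y, D.γ y) = 0 := by
    filter_upwards [hl, T.isOpen.mem_nhds T.mem] with y h1 h2
    simp only [mem_inter_iff, h1, h2, and_true, Prod.mk_eq_zero]
    rfl
  obtain ⟨e, he, he'⟩ := Par72.chart_of_bij (hF.prodMk D.gf) hτ hb hx hS
  have : Nonempty ↥(Z ∩ (D.S ∩ T.V)) := ⟨⟨x₀, hx⟩⟩
  have hj := T.isOpenEmbedding hZ
  let J := hj.toOpenPartialHomeomorph _
  have hJ : ∀ y : ↥(Z ∩ (D.S ∩ T.V)), J.symm (cls G ⟨y, y.2.1⟩) = y := fun y =>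
    J.left_inv (x := y) (mem_univ _)
  refine ⟨J.symm.trans e, ⟨J.map_source (x := ⟨x₀, hx⟩) (mem_univ _), ?_⟩, ?_⟩
  · show J.symm _ ∈ e.source
    rw [hJ ⟨x₀, hx⟩]
    exact he
  · intro m hm
    refine ⟨⟨J.symm m, (J.symm m).2.1⟩, J.right_inv hm.1, (J.symm m).2.2.1, he' _⟩

/-- Invariant coordinates descend to charts. -/
theorem chart_lift {Z : Set C} (hZ : Inv G Z) (h0 : x₀ ∈ Z) {F : C → E} {F' : C →L[ℝ] E}
    (hF : HasStrictFDerivAt F F' x₀) (hl : ∀ᶠ y in 𝓝 x₀, y ∈ Z ↔ F y = 0)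
    {τ : C → R} {τ' : C →L[ℝ] R} (hτ : HasStrictFDerivAt τ τ' x₀)
    (hi : ∀ (g : G), ∀ x ∈ Z, τ (g • x) = τ x)
    (hb : Bijective ((F'.prod D.σ).prod τ')) :
    ∃ e : OpenPartialHomeomorph (Mod G Z) R, cls G ⟨x₀, h0⟩ ∈ e.source ∧
      ∀ m ∈ e.source, e m = lift τ hi m := by
  obtain ⟨e, h1, h2⟩ := D.chart hZ h0 hF hl hτ hb
  refine ⟨e, h1, fun m hm => ?_⟩
  obtain ⟨y, rfl, -, h⟩ := h2 m hm
  rw [h, lift_mk]

theorem surj_gf {Z : Set C} (hZ : Inv G Z) (h0 : x₀ ∈ Z) {F : C → E} {F' : C →L[ℝ] E}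
    (hF : HasFDerivAt F F' x₀) (hl : ∀ᶠ y in 𝓝 x₀, y ∈ Z ↔ F y = 0) (hs : Surjective F') :
    Surjective (F'.prod D.σ) :=
  (surj_prod_iff (D.comp_d_of_zero hF hZ h0 hl) D.bij.2).2 hs

/-- Regular point with finite-dimensional gauge-fixed kernel: chart onto the kernel. -/
theorem chart_ker {Z : Set C} (hZ : Inv G Z) (h0 : x₀ ∈ Z) {F : C → E} {F' : C →L[ℝ] E}
    (hF : HasStrictFDerivAt F F' x₀) (hl : ∀ᶠ y in 𝓝 x₀, y ∈ Z ↔ F y = 0) (hs : Surjective F')
    [FiniteDimensional ℝ (F'.prod D.σ).ker] :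
    ∃ e : OpenPartialHomeomorph (Mod G Z) (F'.prod D.σ).ker, cls G ⟨x₀, h0⟩ ∈ e.source := by
  obtain ⟨π, hπ⟩ := Submodule.ClosedComplemented.of_finiteDimensional (F'.prod D.σ).ker
  have : CompleteSpace (F'.prod D.σ).ker := FiniteDimensional.complete ℝ _
  have hs' := D.surj_gf hZ h0 hF.hasFDerivAt hl hs
  have hb : Bijective ((F'.prod D.σ).prod π) := by
    constructor
    · rw [injective_iff_map_eq_zero]
      intro v hv
      have h1 : v ∈ (F'.prod D.σ).ker := congrArg Prod.fst hv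
      have h2 : π v = 0 := congrArg Prod.snd hv
      have := hπ ⟨v, h1⟩
      rw [show π (⟨v, h1⟩ : (F'.prod D.σ).ker) = 0 from h2] at this
      exact (congrArg Subtype.val this).symm
    · rintro ⟨f, k⟩
      obtain ⟨v, rfl⟩ := hs' f
      refine ⟨v + (k - π v : (F'.prod D.σ).ker), ?_⟩
      have h1 : (F'.prod D.σ) (k - π v : (F'.prod D.σ).ker) = 0 := (k - π v).2
      rw [ContinuousLinearMap.prod_apply, map_add, h1, add_zero, map_add, hπ, add_sub_cancel]
  obtain ⟨e, h, -⟩ := D.chart hZ h0 hF hl π.hasStrictFDerivAt hb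
  exact ⟨e, h⟩

/-- Regular point of index `n`: a chart with values in `ℝⁿ`. -/
theorem chart_fin {Z : Set C} (hZ : Inv G Z) (h0 : x₀ ∈ Z) {F : C → E} {F' : C →L[ℝ] E}
    (hF : HasStrictFDerivAt F F' x₀) (hl : ∀ᶠ y in 𝓝 x₀, y ∈ Z ↔ F y = 0) (hs : Surjective F')
    [FiniteDimensional ℝ (F'.prod D.σ).ker] {n : ℕ}
    (hn : Module.finrank ℝ (F'.prod D.σ).ker = n) :
    ∃ e : OpenPartialHomeomorph (Mod G Z) (EuclideanSpace ℝ (Fin n)),
      cls G ⟨x₀, h0⟩ ∈ e.source := by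
  obtain ⟨e, he⟩ := D.chart_ker hZ h0 hF hl hs
  let A : (F'.prod D.σ).ker ≃L[ℝ] EuclideanSpace ℝ (Fin n) :=
    ContinuousLinearEquiv.ofFinrankEq (by simpa using hn)
  exact ⟨e.trans A.toHomeomorph.toOpenPartialHomeomorph, ⟨he, mem_univ _⟩⟩

/-- Regular point of index one. -/
theorem chart_one {Z : Set C} (hZ : Inv G Z) (h0 : x₀ ∈ Z) {F : C → E} {F' : C →L[ℝ] E}
    (hF : HasStrictFDerivAt F F' x₀) (hl : ∀ᶠ y in 𝓝 x₀, y ∈ Z ↔ F y = 0) (hs : Surjective F')
    (hn : Module.finrank ℝ (F'.prod D.σ).ker = 1) :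
    ∃ e : OpenPartialHomeomorph (Mod G Z) ℝ, cls G ⟨x₀, h0⟩ ∈ e.source := by
  have : FiniteDimensional ℝ (F'.prod D.σ).ker := Module.finite_of_finrank_pos (by omega)
  obtain ⟨e, he⟩ := D.chart_ker hZ h0 hF hl hs
  let A : (F'.prod D.σ).ker ≃L[ℝ] ℝ := ContinuousLinearEquiv.ofFinrankEq (by simpa using hn)
  exact ⟨e.trans A.toHomeomorph.toOpenPartialHomeomorph, ⟨he, mem_univ _⟩⟩

/-- A point with injective gauge-fixed linearisation is isolated in the moduli space (only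
`Z ⊆ {F = 0}` near `x₀` is used, and closed range). -/
theorem isolated {Z : Set C} (hZ : Inv G Z) (h0 : x₀ ∈ Z) {F : C → E} {F' : C →L[ℝ] E}
    (hF : HasStrictFDerivAt F F' x₀) (hl : ∀ᶠ y in 𝓝 x₀, y ∈ Z ↔ F y = 0) (hs : Surjective F')
    (hi : Injective (F'.prod D.σ)) :
    ∀ᶠ m in 𝓝 (cls G (⟨x₀, h0⟩ : Z)), m = cls G ⟨x₀, h0⟩ := by
  have hk : (F'.prod D.σ).ker = ⊥ := LinearMap.ker_eq_bot.2 hi
  have : Subsingleton (F'.prod D.σ).ker := by rw [hk]; infer_instance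
  obtain ⟨e, he⟩ := D.chart_ker hZ h0 hF hl hs
  filter_upwards [e.open_source.mem_nhds he] with m hm
  exact e.injOn hm he (Subsingleton.elim _ _)

/-- An invariant function whose level set is cut out regularly is a local coordinate of a
one-dimensional moduli space. -/
theorem tr_lift {Z : Set C} (hZ : Inv G Z) (h0 : x₀ ∈ Z) {F : C → E} {F' : C →L[ℝ] E}
    (hF : HasStrictFDerivAt F F' x₀) (hl : ∀ᶠ y in 𝓝 x₀, y ∈ Z ↔ F y = 0)
    {τ : C → ℝ} {τ' : C →L[ℝ] ℝ} (hτ : HasStrictFDerivAt τ τ' x₀)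
    (hi : ∀ (g : G), ∀ x ∈ Z, τ (g • x) = τ x) (hs : Surjective (F'.prod τ'))
    (hn : Module.finrank ℝ (F'.prod D.σ).ker = 1) :
    Par72.Tr (lift τ hi) (cls G ⟨x₀, h0⟩) := by
  have h1 : F'.comp D.d = 0 := D.comp_d_of_zero hF.hasFDerivAt hZ h0 hl
  have h2 : τ'.comp D.d = 0 :=
    D.comp_d_eq_zero hτ.hasFDerivAt (Eventually.of_forall fun ξ => hi _ _ h0)
  have h3 : (F'.prod τ').comp D.d = 0 := by
    ext ξ
    · simpa using congrArg (fun T : L →L[ℝ] E => T ξ) h1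
    · simpa using congrArg (fun T : L →L[ℝ] ℝ => T ξ) h2
  have h4 := (surj_prod_iff h3 D.bij.2).2 hs
  have hb : Bijective ((F'.prod D.σ).prod τ') := by
    refine Par72.bij_of_facet ?_ ?_ hn
    · intro h
      obtain ⟨v, hv⟩ := hs (0, 1)
      have : τ' v = 1 := congrArg Prod.snd hv
      simp [h] at this
    · rintro ⟨f, w⟩
      obtain ⟨v, hv⟩ := h4 ((f, 0), w)
      simp only [ContinuousLinearMap.prod_apply, Prod.mk.injEq] at hv ⊢
      exact ⟨v, hv.1.2, hv.1.1, hv.2⟩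
  obtain ⟨e, he, he'⟩ := D.chart_lift hZ h0 hF hl hτ hi hb
  exact ⟨e, he, by filter_upwards [e.open_source.mem_nhds he] with m hm using (he' m hm).symm⟩

end SliceData

/-- Regularity is transported along the action. -/
theorem surj_of_equivariant {a : C → C} {φ : C → E} {x : C} {φ₀ φ₁ : C →L[ℝ] E}
    {A : C →L[ℝ] C} {ρ : E →L[ℝ] E} (h0 : HasFDerivAt φ φ₀ x) (h1 : HasFDerivAt φ φ₁ (a x))
    (ha : HasFDerivAt a A x) (hA : Surjective A) (hρ : Injective ρ)
    (he : ∀ᶠ y in 𝓝 x, φ (a y) = ρ (φ y)) (hs : Surjective φ₁) :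
    Surjective φ₀ := by
  have h2 := h1.comp x ha
  have h3 : HasFDerivAt (φ ∘ a) (ρ.comp φ₀) x :=
    (ρ.hasFDerivAt.comp x h0).congr_of_eventuallyEq he
  have h4 := h2.unique h3
  intro y
  obtain ⟨v, hv⟩ := hs (ρ y)
  obtain ⟨w, rfl⟩ := hA v
  refine ⟨w, hρ ?_⟩
  rw [← hv]
  exact (congrArg (fun T : C →L[ℝ] E => T w) h4).symm

end Crest.Agent.X212.Slc61
end
end

-- ▼ part X212/Slc61/Gen
section

/-! Generic regularity modulo gauge (Sard–Smale through slices) and mod 2 counting. -/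

set_option autoImplicit false
set_option linter.unusedSectionVars false

noncomputable section

open Set Filter Topology Function
open scoped ContDiff

namespace Crest.Agent.X212.Slc61

open Sard93 (dE)

section generic

variable {G : Type*} [Group G] {C : Type*} [NormedAddCommGroup C] [NormedSpace ℝ C]
  [CompleteSpace C] [MulAction G C]
  {L H E P : Type*} [NormedAddCommGroup L] [NormedSpace ℝ L] [CompleteSpace L]
  [NormedAddCommGroup H] [NormedSpace ℝ H] [CompleteSpace H]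
  [NormedAddCommGroup E] [NormedSpace ℝ E] [CompleteSpace E]
  [NormedAddCommGroup P] [NormedSpace ℝ P] [CompleteSpace P]

/-- Local form: one point `z` of the universal solution set `Zu`. -/
theorem generic_loc {U : Set (C × P)} (hU : IsOpen U) {F : C × P → E} (hF : ContDiffOn ℝ ∞ F U)
    {Zu : Set (C × P)} (hZU : Zu ⊆ U) (h0 : ∀ z ∈ Zu, F z = 0)
    (hinv : ∀ (g : G) x p, (x, p) ∈ Zu → (g • x, p) ∈ Zu)
    (hreg : ∀ (g : G) x p, (x, p) ∈ Zu → Surjective (dE F (g • x, p)) → Surjective (dE F (x, p)))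
    {z : C × P} (hz : z ∈ Zu) (D : SliceData G L H z.1) (hγ : ContDiff ℝ ∞ D.γ)
    (hFr : ((dE F z).prod D.σ).IsFredholm) (hS : Surjective (fderiv ℝ F z)) :
    ∃ N ∈ 𝓝 z, ∀ᶠ p in residual P, ∀ x, (x, p) ∈ N → (x, p) ∈ Zu → Surjective (dE F (x, p)) := by
  obtain ⟨x₀, p₀⟩ := z
  let Φ : C × P → E × H := fun w => (F w, D.γ w.1)
  have hΦ : ContDiffOn ℝ ∞ Φ U := hF.prodMk (hγ.comp contDiff_fst).contDiffOn
  have hdF : ∀ w ∈ U, DifferentiableAt ℝ F w := fun w hw =>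
    (hF.contDiffAt (hU.mem_nhds hw)).differentiableAt (by simp)
  have hdΦ : ∀ w ∈ U, fderiv ℝ Φ w =
      (fderiv ℝ F w).prod ((fderiv ℝ D.γ w.1).comp (ContinuousLinearMap.fst ℝ C P)) := fun w hw =>
    ((hdF w hw).hasFDerivAt.prodMk
      ((hγ.differentiable (by simp) w.1).hasFDerivAt.comp w hasFDerivAt_fst)).fderiv
  have hσ : fderiv ℝ D.γ x₀ = D.σ := D.gf.hasFDerivAt.fderiv
  have hE : dE Φ (x₀, p₀) = (dE F (x₀, p₀)).prod D.σ := by
    ext v
    · simp [Sard93.dE_apply, hdΦ _ (hZU hz)]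
    · simp [Sard93.dE_apply, hdΦ _ (hZU hz), hσ]
  have hd : (dE F (x₀, p₀)).comp D.d = 0 := by
    have h1 : HasFDerivAt (fun y => F (y, p₀)) (dE F (x₀, p₀)) x₀ :=
      (hdF _ (hZU hz)).hasFDerivAt.comp x₀ (hasFDerivAt_prodMk_left x₀ p₀)
    exact D.comp_d_eq_zero h1 (Eventually.of_forall fun ξ => by
      rw [h0 _ (hinv _ _ _ hz), h0 _ hz])
  have hS' : Surjective (fderiv ℝ Φ (x₀, p₀)) := by
    rintro ⟨f, w⟩
    obtain ⟨⟨v, q⟩, rfl⟩ := hS f
    obtain ⟨ξ, hξ⟩ := D.bij.2 (w - D.σ v)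
    refine ⟨(v, q) + (D.d ξ, 0), ?_⟩
    have h2 : fderiv ℝ F (x₀, p₀) (D.d ξ, 0) = 0 := by
      simpa [Sard93.dE_apply] using congrArg (fun T : L →L[ℝ] E => T ξ) hd
    simp only [ContinuousLinearMap.comp_apply] at hξ
    rw [hdΦ _ (hZU hz), ContinuousLinearMap.prod_apply, map_add, h2, add_zero]
    simp [hσ, hξ]
  obtain ⟨N, hN, hres⟩ := Sard93.param_loc hU hΦ (hZU hz)
    (show Φ (x₀, p₀) = 0 from Prod.ext (h0 _ hz) D.gf0) (hE ▸ hFr) hS'
  obtain ⟨T⟩ := D.exists_tslice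
  have hr : Tendsto (fun w : C × P => (T.r w.1, w.2)) (𝓝 (x₀, p₀)) (𝓝 (x₀, p₀)) := by
    have h1 : ContinuousAt T.r x₀ := T.cont.continuousAt (T.isOpen.mem_nhds T.mem)
    have h2 : T.r x₀ = x₀ := T.r_fix x₀ T.mem D.mem_S
    have h3 : ContinuousAt (fun w : C × P => (T.r w.1, w.2)) (x₀, p₀) :=
      (ContinuousAt.comp (f := Prod.fst) h1 continuousAt_fst).prodMk continuousAt_snd
    simpa [ContinuousAt, h2] using h3
  refine ⟨{w | w.1 ∈ T.V} ∩ (fun w : C × P => (T.r w.1, w.2)) ⁻¹' N,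
    inter_mem ((T.isOpen.preimage continuous_fst).mem_nhds T.mem) (hr hN), ?_⟩
  filter_upwards [hres] with p hp x hx hxZ
  obtain ⟨g, hg⟩ := T.r_orb x hx.1
  have hgZ := hinv g x p hxZ
  refine hreg g x p hxZ ?_
  have h4 := hp (g • x) (by rw [hg]; exact hx.2)
    (Prod.ext (h0 _ hgZ) (by rw [hg]; exact T.r_mem x hx.1))
  intro f
  obtain ⟨v, hv⟩ := h4 (f, 0)
  refine ⟨v, ?_⟩
  rw [Sard93.dE_apply, hdΦ _ (hZU hgZ)] at hv
  exact congrArg Prod.fst hv

/-- **Generic regularity modulo gauge.** `Zu` is any invariant set of zeros of `F` (the free part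
of the universal moduli space); at each of its points there is a slice, the gauge-fixed
linearisation is Fredholm and the full derivative is onto. Then for a residual set of parameters
every point of `Zu` is regular. -/
theorem generic [SecondCountableTopology C] [SecondCountableTopology P]
    {U : Set (C × P)} (hU : IsOpen U) {F : C × P → E} (hF : ContDiffOn ℝ ∞ F U)
    {Zu : Set (C × P)} (hZU : Zu ⊆ U) (h0 : ∀ z ∈ Zu, F z = 0)
    (hinv : ∀ (g : G) x p, (x, p) ∈ Zu → (g • x, p) ∈ Zu)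
    (hreg : ∀ (g : G) x p, (x, p) ∈ Zu → Surjective (dE F (g • x, p)) → Surjective (dE F (x, p)))
    (hpt : ∀ z ∈ Zu, ∃ D : SliceData G L H z.1, ContDiff ℝ ∞ D.γ ∧
      ((dE F z).prod D.σ).IsFredholm ∧ Surjective (fderiv ℝ F z)) :
    ∀ᶠ p in residual P, ∀ x, (x, p) ∈ Zu → Surjective (dE F (x, p)) := by
  have h : ∀ z ∈ Zu, ∃ N ∈ 𝓝 z, ∀ᶠ p in residual P, ∀ x, (x, p) ∈ N → (x, p) ∈ Zu →
      Surjective (dE F (x, p)) := fun z hz => by
    obtain ⟨D, h1, h2, h3⟩ := hpt z hz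
    exact generic_loc hU hF hZU h0 hinv hreg hz D h1 h2 h3
  choose! N hN hres using h
  obtain ⟨s, hc, hs, hcov⟩ := (HereditarilyLindelofSpace.isLindelof Zu).elim_nhds_subcover N hN
  have := (eventually_countable_ball hc).2 fun z hz => hres z (hs z hz)
  filter_upwards [this] with p hp x hx
  obtain ⟨z, hz, hxz⟩ := mem_iUnion₂.1 (hcov hx)
  exact hp z hz x hxz hx

/-- Version in which the point hypotheses are only known on ONE representative of each orbit
(for instance a smooth one). -/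
theorem generic' [SecondCountableTopology C] [SecondCountableTopology P]
    {U : Set (C × P)} (hU : IsOpen U) {F : C × P → E} (hF : ContDiffOn ℝ ∞ F U)
    [ContinuousConstSMul G C]
    {Zu : Set (C × P)} (hZU : Zu ⊆ U) (h0 : ∀ z ∈ Zu, F z = 0)
    (hinv : ∀ (g : G) x p, (x, p) ∈ Zu → (g • x, p) ∈ Zu)
    (hreg : ∀ (g : G) x p, (x, p) ∈ Zu → Surjective (dE F (g • x, p)) → Surjective (dE F (x, p)))
    (hpt : ∀ x p, (x, p) ∈ Zu → ∃ (g : G) (D : SliceData G L H (g • x)), ContDiff ℝ ∞ D.γ ∧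
      ((dE F (g • x, p)).prod D.σ).IsFredholm ∧ Surjective (fderiv ℝ F (g • x, p))) :
    ∀ᶠ p in residual P, ∀ x, (x, p) ∈ Zu → Surjective (dE F (x, p)) := by
  have h : ∀ z ∈ Zu, ∃ N ∈ 𝓝 z, ∀ᶠ p in residual P, ∀ x, (x, p) ∈ N → (x, p) ∈ Zu →
      Surjective (dE F (x, p)) := fun z hz => by
    obtain ⟨x₀, p₀⟩ := z
    obtain ⟨g, D, h1, h2, h3⟩ := hpt x₀ p₀ hz
    obtain ⟨N, hN, hres⟩ := generic_loc hU hF hZU h0 hinv hreg (z := (g • x₀, p₀))
      (hinv g _ _ hz) D h1 h2 h3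
    have hc : Continuous fun w : C × P => (g • w.1, w.2) :=
      ((continuous_const_smul g).comp continuous_fst).prodMk continuous_snd
    refine ⟨_, hc.continuousAt.preimage_mem_nhds (x := (x₀, p₀)) hN, ?_⟩
    filter_upwards [hres] with p hp x hx hxZ
    exact hreg g x p hxZ (hp _ hx (hinv g _ _ hxZ))
  choose! N hN hres using h
  obtain ⟨s, hc, hs, hcov⟩ := (HereditarilyLindelofSpace.isLindelof Zu).elim_nhds_subcover N hN
  have := (eventually_countable_ball hc).2 fun z hz => hres z (hs z hz)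
  filter_upwards [this] with p hp x hx
  obtain ⟨z, hz, hxz⟩ := mem_iUnion₂.1 (hcov hx)
  exact hp z hz x hxz hx

/-- At a regular point the index of the gauge-fixed operator is the dimension of its kernel; in
particular it is non-negative. -/
theorem index_eq_of_regular {x₀ : C} (D : SliceData G L H x₀) {F' : C →L[ℝ] E}
    (hd : F'.comp D.d = 0) (hs : Surjective F') :
    (F'.prod D.σ : C →ₗ[ℝ] E × H).index = Module.finrank ℝ (F'.prod D.σ).ker :=
  LinearMap.index_of_surjective ((surj_prod_iff hd D.bij.2).2 hs)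

end generic

section count

variable (G : Type*) [Group G] {C : Type*} [MulAction G C]

/-- The number of orbits in `Z`. -/
def cnt (Z : Set C) : ℕ := Nat.card (Mod G Z)

variable {G}

/-- Orbits of a subset, seen inside a bigger orbit space. -/
def modEquiv {Z Z' : Set C} (h : Z' ⊆ Z) :
    Mod G Z' ≃ ↥(cls G '' {x : Z | (x : C) ∈ Z'}) :=
  Equiv.ofBijective
    (Quotient.lift (s := orb G Z')
      (fun x => (⟨cls G ⟨x, h x.2⟩, ⟨x, h x.2⟩, x.2, rfl⟩ : ↥(cls G '' {x : Z | (x : C) ∈ Z'})))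
      (fun _ _ hxy => Subtype.ext (mk_eq_iff.2 hxy)))
    ⟨by
      intro a b
      obtain ⟨x, rfl⟩ := mk_surj a
      obtain ⟨y, rfl⟩ := mk_surj b
      intro hxy
      have h1 : cls G (⟨(x : C), h x.2⟩ : Z) = cls G (⟨(y : C), h y.2⟩ : Z) :=
        congrArg Subtype.val hxy
      obtain ⟨g, hg⟩ := mk_eq_iff.1 h1
      exact mk_eq_iff.2 ⟨g, hg⟩,
     by
      rintro ⟨_, x, hx, rfl⟩
      exact ⟨cls G ⟨x, hx⟩, rfl⟩⟩

theorem cnt_eq_ncard {Z Z' : Set C} (h : Z' ⊆ Z) :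
    cnt G Z' = (cls G '' {x : Z | (x : C) ∈ Z'}).ncard := by
  rw [cnt, Nat.card_congr (modEquiv h), Nat.card_coe_set_eq]

theorem finite_mod_iff {Z Z' : Set C} (h : Z' ⊆ Z) :
    Finite (Mod G Z') ↔ (cls G '' {x : Z | (x : C) ∈ Z'}).Finite := by
  rw [← Set.finite_coe_iff]
  exact (modEquiv h).finite_iff

theorem cnt_empty : cnt G (∅ : Set C) = 0 := by
  have : IsEmpty (Mod G (∅ : Set C)) := ⟨fun m => by
    obtain ⟨x, -⟩ := mk_surj m
    exact x.2⟩
  exact Nat.card_of_isEmpty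

/-- Comparison of two moduli problems: a map that respects and reflects gauge equivalence and is
onto up to gauge. -/
def congrEquiv {G' : Type*} [Group G'] {C' : Type*} [MulAction G' C'] {Z : Set C} {Z' : Set C'}
    (f : Z → Z') (h : ∀ x y : Z, (∃ g : G, g • (x : C) = y) ↔ ∃ g : G', g • (f x : C') = f y)
    (hs : ∀ y : Z', ∃ (x : Z) (g : G'), g • (f x : C') = y) : Mod G Z ≃ Mod G' Z' :=
  Equiv.ofBijective
    (Quotient.lift (s := orb G Z) (fun x => cls G' (f x)) fun x y hxy => mk_eq_iff.2 ((h x y).1 hxy))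
    ⟨by
      intro a b
      obtain ⟨x, rfl⟩ := mk_surj a
      obtain ⟨y, rfl⟩ := mk_surj b
      intro hxy
      exact mk_eq_iff.2 ((h x y).2 (mk_eq_iff.1 hxy)),
     by
      intro m
      obtain ⟨y, rfl⟩ := mk_surj m
      obtain ⟨x, g, hg⟩ := hs y
      exact ⟨cls G x, mk_eq_iff.2 ⟨g, hg⟩⟩⟩

theorem cnt_congr {G' : Type*} [Group G'] {C' : Type*} [MulAction G' C'] {Z : Set C}
    {Z' : Set C'} (f : Z → Z')
    (h : ∀ x y : Z, (∃ g : G, g • (x : C) = y) ↔ ∃ g : G', g • (f x : C') = f y)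
    (hs : ∀ y : Z', ∃ (x : Z) (g : G'), g • (f x : C') = y) : cnt G Z = cnt G' Z' :=
  Nat.card_congr (congrEquiv f h hs)

/-- Additivity over a disjoint union of invariant sets. -/
theorem cnt_union {A B : Set C} (hA : Inv G A) (hd : Disjoint A B)
    [Finite (Mod G A)] [Finite (Mod G B)] : cnt G (A ∪ B) = cnt G A + cnt G B := by
  have h1 := (finite_mod_iff (G := G) (subset_union_left (s := A) (t := B))).1 inferInstance
  have h2 := (finite_mod_iff (G := G) (subset_union_right (s := A) (t := B))).1 inferInstance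
  rw [cnt_eq_ncard (subset_union_left (s := A) (t := B)),
    cnt_eq_ncard (subset_union_right (s := A) (t := B)), cnt_eq_ncard (subset_refl (A ∪ B)),
    ← Set.ncard_union_eq ?_ h1 h2, ← image_union]
  · rfl
  · rw [Set.disjoint_left]
    rintro _ ⟨x, hx, rfl⟩ ⟨y, hy, hxy⟩
    obtain ⟨g, hg⟩ := mk_eq_iff.1 hxy.symm
    exact Set.disjoint_left.1 hd (hg ▸ hA g x hx) hy

end count

end Crest.Agent.X212.Slc61
end
end

-- ▼ part X212/Slc61/Par
section

/-! The three counting theorems modulo gauge: negative index is empty, index zero is finite,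
index one gives the parity of the facets. -/

set_option autoImplicit false
set_option linter.unusedSectionVars false

noncomputable section

open Set Filter Topology Function

namespace Crest.Agent.X212.Slc61

variable {G : Type*} [Group G] {C : Type*} [NormedAddCommGroup C] [NormedSpace ℝ C]
  [CompleteSpace C] [MulAction G C]
  (L H : Type*) {E : Type*} [NormedAddCommGroup L] [NormedSpace ℝ L] [CompleteSpace L]
  [NormedAddCommGroup H] [NormedSpace ℝ H] [CompleteSpace H]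
  [NormedAddCommGroup E] [NormedSpace ℝ E] [CompleteSpace E]

/-- `x` is a regular point of index `n` of the moduli problem `Z = {F = 0}`. -/
def Reg (G : Type*) [Group G] [MulAction G C] (Z : Set C) (F : C → E) (n : ℤ) (x : C) : Prop :=
  ∃ (D : SliceData G L H x) (F' : C →L[ℝ] E), HasStrictFDerivAt F F' x ∧
    (∀ᶠ y in 𝓝 x, y ∈ Z ↔ F y = 0) ∧ Surjective F' ∧
    FiniteDimensional ℝ (F'.prod D.σ).ker ∧ (F'.prod D.σ : C →ₗ[ℝ] E × H).index = n

/-- Sequential compactness of `Z` modulo gauge. -/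
def SeqCpt (G : Type*) [Group G] [MulAction G C] (Z : Set C) : Prop :=
  ∀ x : ℕ → C, (∀ n, x n ∈ Z) → ∃ (φ : ℕ → ℕ) (g : ℕ → G) (a : C), StrictMono φ ∧
    a ∈ Z ∧ Tendsto (fun n => g n • x (φ n)) atTop (𝓝 a)

variable {L H}

theorem Reg.finrank {Z : Set C} (hZ : Inv G Z) {F : C → E} {n : ℤ} {x : C} (hx : x ∈ Z)
    (h : Reg L H G Z F n x) : ∃ (D : SliceData G L H x) (F' : C →L[ℝ] E),
      HasStrictFDerivAt F F' x ∧ (∀ᶠ y in 𝓝 x, y ∈ Z ↔ F y = 0) ∧ Surjective F' ∧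
      FiniteDimensional ℝ (F'.prod D.σ).ker ∧ (Module.finrank ℝ (F'.prod D.σ).ker : ℤ) = n := by
  obtain ⟨D, F', h1, h2, h3, h4, h5⟩ := h
  refine ⟨D, F', h1, h2, h3, h4, ?_⟩
  rw [← h5, index_eq_of_regular D (D.comp_d_of_zero h1.hasFDerivAt hZ hx h2) h3]

/-- Negative index: no regular point. -/
theorem Reg.nonneg {Z : Set C} (hZ : Inv G Z) {F : C → E} {n : ℤ} {x : C} (hx : x ∈ Z)
    (h : Reg L H G Z F n x) : 0 ≤ n := by
  obtain ⟨D, F', -, -, -, -, h5⟩ := h.finrank hZ hx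
  omega

variable [ContinuousConstSMul G C]

theorem Reg.chart {Z : Set C} (hZ : Inv G Z) {F : C → E} {n : ℕ} {x : C} (hx : x ∈ Z)
    (h : Reg L H G Z F n x) :
    ∃ e : OpenPartialHomeomorph (Mod G Z) (EuclideanSpace ℝ (Fin n)), cls G ⟨x, hx⟩ ∈ e.source := by
  obtain ⟨D, F', h1, h2, h3, h4, h5⟩ := h.finrank hZ hx
  exact D.chart_fin hZ hx h1 h2 h3 (by exact_mod_cast h5)

theorem Reg.chart_one {Z : Set C} (hZ : Inv G Z) {F : C → E} {x : C} (hx : x ∈ Z)
    (h : Reg L H G Z F 1 x) :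
    ∃ e : OpenPartialHomeomorph (Mod G Z) ℝ, cls G ⟨x, hx⟩ ∈ e.source := by
  obtain ⟨D, F', h1, h2, h3, h4, h5⟩ := h.finrank hZ hx
  exact D.chart_one hZ hx h1 h2 h3 (by exact_mod_cast h5)

theorem Reg.isolated {Z : Set C} (hZ : Inv G Z) {F : C → E} {x : C} (hx : x ∈ Z)
    (h : Reg L H G Z F 0 x) : ∀ᶠ m in 𝓝 (cls G (⟨x, hx⟩ : Z)), m = cls G ⟨x, hx⟩ := by
  obtain ⟨D, F', h1, h2, h3, h4, h5⟩ := h.finrank hZ hx
  refine D.isolated hZ hx h1 h2 h3 (LinearMap.ker_eq_bot.1 ?_)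
  exact Submodule.finrank_eq_zero.1 (by exact_mod_cast h5)

/-- An invariant function `τ` such that `(F, τ)` is a submersion is a coordinate. -/
theorem Reg.tr {Z : Set C} (hZ : Inv G Z) {F : C → E} {x : C} (hx : x ∈ Z)
    (h : Reg L H G Z F 1 x) {τ : C → ℝ} (hi : ∀ (g : G), ∀ x ∈ Z, τ (g • x) = τ x)
    {τ' : C →L[ℝ] ℝ} (hτ : HasStrictFDerivAt τ τ' x)
    (hs : Surjective ((fderiv ℝ F x).prod τ')) : Par72.Tr (lift τ hi) (cls G ⟨x, hx⟩) := by
  obtain ⟨D, F', h1, h2, h3, h4, h5⟩ := h.finrank hZ hx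
  rw [h1.hasFDerivAt.fderiv] at hs
  exact D.tr_lift hZ hx h1 h2 hτ hi hs (by exact_mod_cast h5)

theorem SeqCpt.isCompact [SecondCountableTopology C] {Z K : Set C} (hZ : Inv G Z)
    (h : SeqCpt G (Z ∩ K)) : IsCompact (cls G '' {x : Z | (x : C) ∈ K}) :=
  isCompact_of_seq hZ h

/-- **Index zero**: a compact regular moduli space is finite.  Regularity is only required on one
representative of each orbit. -/
theorem finite_of_reg' {Z K : Set C} (hZ : Inv G Z) {F : C → E}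
    (hc : IsCompact (cls G '' {x : Z | (x : C) ∈ K}))
    (hr : ∀ x ∈ Z, x ∈ K → ∃ g : G, Reg L H G Z F 0 (g • x)) : Finite (Mod G (Z ∩ K)) := by
  have := Par72.finite_of_isolated (S := univ) hc fun m hm => by
    obtain ⟨x, hx, rfl⟩ := hm
    obtain ⟨g, hg⟩ := hr x x.2 hx
    have h3 := hg.isolated hZ (hZ g x x.2)
    rw [mk_smul hZ] at h3
    exact ⟨_, h3.mono fun y hy _ => hy⟩
  refine (finite_mod_iff inter_subset_left).2 (this.subset ?_)
  rintro _ ⟨x, hx, rfl⟩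
  exact ⟨mem_univ _, x, hx.2, rfl⟩

theorem finite_of_reg [SecondCountableTopology C] {Z : Set C} (hZ : Inv G Z) {F : C → E}
    (hc : SeqCpt G Z) (hr : ∀ x ∈ Z, ∃ g : G, Reg L H G Z F 0 (g • x)) : Finite (Mod G Z) := by
  have := finite_of_reg' (K := univ) hZ (SeqCpt.isCompact hZ (by simpa using hc))
    fun x hx _ => hr x hx
  rwa [inter_univ] at this

/-- **Index one, facets.** `Z` an invariant solution set, `τ i` invariant functions; the part
`{∀ i, 0 ≤ τ i}` is compact modulo gauge and regular of index one, no point lies on two facets and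
the facets are cut out regularly. Then each facet has finitely many orbits and the total number is
even. -/
theorem even_facets' {Z : Set C} (hZ : Inv G Z) (hcl : ClosedOrb G Z) {F : C → E}
    {ι : Type*} [Fintype ι] (τ : ι → C → ℝ) (hi : ∀ i (g : G), ∀ x ∈ Z, τ i (g • x) = τ i x)
    (hτ : ∀ i, ContinuousOn (τ i) Z)
    (hc : IsCompact (cls G '' {x : Z | (x : C) ∈ {x | ∀ i, 0 ≤ τ i x}}))
    (hr : ∀ x ∈ Z, (∀ i, 0 ≤ τ i x) → ∃ g : G, Reg L H G Z F 1 (g • x) ∧ ∀ i, τ i x = 0 →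
      ∃ τ' : C →L[ℝ] ℝ, HasStrictFDerivAt (τ i) τ' (g • x) ∧
        Surjective ((fderiv ℝ F (g • x)).prod τ'))
    (hcor : ∀ x ∈ Z, (∀ i, 0 ≤ τ i x) → ∀ i j, τ i x = 0 → τ j x = 0 → i = j) :
    (∀ i, Finite (Mod G (Z ∩ {x | (∀ j, 0 ≤ τ j x) ∧ τ i x = 0}))) ∧
      Even (∑ i, cnt G (Z ∩ {x | (∀ j, 0 ≤ τ j x) ∧ τ i x = 0})) := by
  have := t2_mod hZ hcl
  let t : ι → Mod G Z → ℝ := fun i => lift (τ i) (hi i)
  have hK : {m | ∀ i, 0 ≤ t i m} = cls G '' {x : Z | (x : C) ∈ {x | ∀ i, 0 ≤ τ i x}} := by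
    ext m
    obtain ⟨x, rfl⟩ := mk_surj m
    refine ⟨fun h => ⟨x, h, rfl⟩, ?_⟩
    rintro ⟨y, hy, h⟩
    rw [← h]
    exact hy
  have hF : ∀ i, {m | (∀ j, 0 ≤ t j m) ∧ t i m = 0} =
      cls G '' {x : Z | (x : C) ∈ Z ∩ {x | (∀ j, 0 ≤ τ j x) ∧ τ i x = 0}} := fun i => by
    ext m
    obtain ⟨x, rfl⟩ := mk_surj m
    refine ⟨fun h => ⟨x, ⟨x.2, h⟩, rfl⟩, ?_⟩
    rintro ⟨y, hy, h⟩
    rw [← h]
    exact hy.2
  have H := Par72.even_facets t (hK ▸ hc)
    (fun m _ i => (continuous_lift (hi i) (hτ i)).continuousAt)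
    (fun m hm => by
      obtain ⟨x, rfl⟩ := mk_surj m
      obtain ⟨g, hg, -⟩ := hr x x.2 fun i => (hm i).le
      have h3 := hg.chart_one hZ (hZ g x x.2)
      rwa [mk_smul hZ] at h3)
    (fun m hm => by
      obtain ⟨x, rfl⟩ := mk_surj m
      exact hcor x x.2 hm)
    (fun m hm i h0 => by
      obtain ⟨x, rfl⟩ := mk_surj m
      obtain ⟨g, hg, h2⟩ := hr x x.2 hm
      obtain ⟨τ', h3, h4⟩ := h2 i h0
      have h5 := hg.tr hZ (hZ g x x.2) (hi i) h3 h4
      rwa [mk_smul hZ] at h5)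
  refine ⟨fun i => (finite_mod_iff inter_subset_left).2 (hF i ▸ H.1 i), ?_⟩
  convert H.2 using 2 with i
  rw [cnt_eq_ncard inter_subset_left, hF i]

theorem even_facets [SecondCountableTopology C] {Z : Set C} (hZ : Inv G Z) (hcl : ClosedOrb G Z)
    {F : C → E} {ι : Type*} [Fintype ι] (τ : ι → C → ℝ)
    (hi : ∀ i (g : G), ∀ x ∈ Z, τ i (g • x) = τ i x)
    (hτ : ∀ i, ContinuousOn (τ i) Z) (hc : SeqCpt G (Z ∩ {x | ∀ i, 0 ≤ τ i x}))
    (hr : ∀ x ∈ Z, (∀ i, 0 ≤ τ i x) → ∃ g : G, Reg L H G Z F 1 (g • x) ∧ ∀ i, τ i x = 0 →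
      ∃ τ' : C →L[ℝ] ℝ, HasStrictFDerivAt (τ i) τ' (g • x) ∧
        Surjective ((fderiv ℝ F (g • x)).prod τ'))
    (hcor : ∀ x ∈ Z, (∀ i, 0 ≤ τ i x) → ∀ i j, τ i x = 0 → τ j x = 0 → i = j) :
    (∀ i, Finite (Mod G (Z ∩ {x | (∀ j, 0 ≤ τ j x) ∧ τ i x = 0}))) ∧
      Even (∑ i, cnt G (Z ∩ {x | (∀ j, 0 ≤ τ j x) ∧ τ i x = 0})) :=
  even_facets' hZ hcl τ hi hτ (SeqCpt.isCompact hZ hc) hr hcor

/-- **Cobordism invariance.** One invariant parameter `t ∈ [a, b]`. -/
theorem cnt_modEq [SecondCountableTopology C] {Z : Set C} (hZ : Inv G Z) (hcl : ClosedOrb G Z) {F : C → E}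
    (t : C → ℝ) {a b : ℝ} (hab : a < b) (hi : ∀ (g : G), ∀ x ∈ Z, t (g • x) = t x)
    (ht : ContinuousOn t Z) (hc : SeqCpt G (Z ∩ t ⁻¹' Icc a b))
    (hr : ∀ x ∈ Z, t x ∈ Icc a b → ∃ g : G, Reg L H G Z F 1 (g • x) ∧ (t x = a ∨ t x = b →
      ∃ τ' : C →L[ℝ] ℝ, HasStrictFDerivAt t τ' (g • x) ∧
        Surjective ((fderiv ℝ F (g • x)).prod τ'))) :
    Finite (Mod G (Z ∩ t ⁻¹' {a})) ∧ Finite (Mod G (Z ∩ t ⁻¹' {b})) ∧
      cnt G (Z ∩ t ⁻¹' {a}) ≡ cnt G (Z ∩ t ⁻¹' {b}) [MOD 2] := by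
  have := t2_mod hZ hcl
  have hK : ∀ s : Set ℝ, (lift t hi : Mod G Z → ℝ) ⁻¹' s =
      cls G '' {x : Z | (x : C) ∈ Z ∩ t ⁻¹' s} := fun s => by
    ext m
    obtain ⟨x, rfl⟩ := mk_surj m
    refine ⟨fun h => ⟨x, ⟨x.2, h⟩, rfl⟩, ?_⟩
    rintro ⟨y, hy, h⟩
    rw [← h]
    exact hy.2
  have H := Par72.fibre_modEq (lift t hi : Mod G Z → ℝ) hab
    (hK _ ▸ SeqCpt.isCompact hZ (by simpa [← inter_assoc] using hc))
    (fun m _ => (continuous_lift hi ht).continuousAt)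
    (fun m hm => by
      obtain ⟨x, rfl⟩ := mk_surj m
      obtain ⟨g, hg, -⟩ := hr x x.2 (Ioo_subset_Icc_self hm)
      have h3 := hg.chart_one hZ (hZ g x x.2)
      rwa [mk_smul hZ] at h3)
    (fun m hm => by
      obtain ⟨x, rfl⟩ := mk_surj m
      have hm' : t x = a ∨ t x = b := hm
      obtain ⟨g, hg, h2⟩ := hr x x.2 (by
        rcases hm' with h | h <;> rw [h]
        exacts [left_mem_Icc.2 hab.le, right_mem_Icc.2 hab.le])
      obtain ⟨τ', h3, h4⟩ := h2 hm'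
      have h5 := hg.tr hZ (hZ g x x.2) hi h3 h4
      rwa [mk_smul hZ] at h5)
  refine ⟨(finite_mod_iff inter_subset_left).2 (hK _ ▸ H.1),
    (finite_mod_iff inter_subset_left).2 (hK _ ▸ H.2.1), ?_⟩
  rw [cnt_eq_ncard inter_subset_left, cnt_eq_ncard inter_subset_left, ← hK, ← hK]
  exact H.2.2

end Crest.Agent.X212.Slc61
end
end

-- ▼ part X212/Slc61/Sat
section

/-! Saturations of sets of smooth solutions, and counting over a varying family of problems. -/

set_option autoImplicit false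
set_option linter.unusedSectionVars false

noncomputable section

open Set Filter Topology Function

namespace Crest.Agent.X212.Slc61

section sat

variable (G : Type*) [Group G] {C : Type*} [MulAction G C]

/-- The union of the orbits through `S`. -/
def sat (S : Set C) : Set C := {y | ∃ g : G, g • y ∈ S}

variable {G}

theorem inv_sat (S : Set C) : Inv G (sat G S) := by
  rintro g x ⟨k, hk⟩
  exact ⟨k * g⁻¹, by rwa [mul_smul, inv_smul_smul]⟩

theorem subset_sat (S : Set C) : S ⊆ sat G S := fun x hx => ⟨1, by rwa [one_smul]⟩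

theorem sat_subset {S Z : Set C} (hZ : Inv G Z) (h : S ⊆ Z) : sat G S ⊆ Z := by
  rintro x ⟨g, hg⟩
  simpa using hZ g⁻¹ _ (h hg)

theorem sat_inter {S K : Set C} (hK : Inv G K) : sat G (S ∩ K) = sat G S ∩ K := by
  ext x
  constructor
  · rintro ⟨g, h1, h2⟩
    exact ⟨⟨g, h1⟩, by simpa using hK g⁻¹ _ h2⟩
  · rintro ⟨⟨g, h1⟩, h2⟩
    exact ⟨g, h1, hK g _ h2⟩

theorem cnt_sat (S : Set C) : cnt G (sat G S) = cnt G S :=
  (cnt_congr (G' := G) (Z' := sat G S) (fun x : S => ⟨x, subset_sat S x.2⟩) (fun _ _ => Iff.rfl)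
    fun y => by
      obtain ⟨g, hg⟩ := y.2
      exact ⟨⟨_, hg⟩, g⁻¹, inv_smul_smul _ _⟩).symm

/-- The orbit space as a quotient of an abstract type of solutions. -/
def quotEquiv {X : Type*} (s : Setoid X) {Z : Set C} (f : X → Z)
    (h : ∀ x y, s x y ↔ ∃ g : G, g • (f x : C) = f y)
    (hs : ∀ y : Z, ∃ (x : X) (g : G), g • (f x : C) = y) : Quotient s ≃ Mod G Z :=
  Equiv.ofBijective (Quotient.lift (s := s) (fun x => cls G (f x))
      fun x y hxy => mk_eq_iff.2 ((h x y).1 hxy))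
    ⟨by
      intro a b
      obtain ⟨x, rfl⟩ := Quotient.mk_surjective a
      obtain ⟨y, rfl⟩ := Quotient.mk_surjective b
      intro hxy
      exact Quotient.sound ((h x y).2 (mk_eq_iff.1 hxy)),
     by
      intro m
      obtain ⟨y, rfl⟩ := mk_surj m
      obtain ⟨x, g, hg⟩ := hs y
      exact ⟨Quotient.mk s x, mk_eq_iff.2 ⟨g, hg⟩⟩⟩

end sat

section loc

variable {G : Type*} [Group G] {C : Type*} [NormedAddCommGroup C] [NormedSpace ℝ C]
  [CompleteSpace C] [MulAction G C]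
  {L H E : Type*} [NormedAddCommGroup L] [NormedSpace ℝ L] [CompleteSpace L]
  [NormedAddCommGroup H] [NormedSpace ℝ H] [CompleteSpace H] [Zero E] {x₀ : C}

/-- If the zeros of `F` in the slice near `x₀` belong to `S` (elliptic regularity), then near `x₀`
the saturation of `S` is the zero set of `F`. -/
theorem SliceData.eventually_sat (D : SliceData G L H x₀) {F : C → E} {S : Set C}
    (hS : ∀ x ∈ S, F x = 0) (hF : ∀ (g : G) y, F y = 0 → F (g • y) = 0)
    (hb : ∀ᶠ y in 𝓝 x₀, F y = 0 → D.γ y = 0 → y ∈ S) :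
    ∀ᶠ y in 𝓝 x₀, y ∈ sat G S ↔ F y = 0 := by
  obtain ⟨T⟩ := D.exists_tslice
  have h1 : ContinuousAt T.r x₀ := T.cont.continuousAt (T.isOpen.mem_nhds T.mem)
  have h2 : Tendsto T.r (𝓝 x₀) (𝓝 x₀) := by
    simpa [ContinuousAt, T.r_fix x₀ T.mem D.mem_S] using h1
  filter_upwards [T.isOpen.mem_nhds T.mem, h2.eventually hb] with y hy h3
  constructor
  · rintro ⟨g, hg⟩
    simpa using hF g⁻¹ _ (hS _ hg)
  · intro h0
    obtain ⟨g, hg⟩ := T.r_orb y hy
    exact ⟨g, hg ▸ h3 (hg ▸ hF g y h0) (T.r_mem y hy)⟩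

/-- The same with an invariant domain of definition. -/
theorem SliceData.eventually_sat' (D : SliceData G L H x₀) {F : C → E} {S U : Set C}
    (hU : U ∈ 𝓝 x₀) (hS : ∀ x ∈ S, x ∈ U ∧ F x = 0)
    (hF : ∀ (g : G), ∀ y ∈ U, F y = 0 → F (g • y) = 0)
    (hb : ∀ᶠ y in 𝓝 x₀, F y = 0 → D.γ y = 0 → y ∈ S) :
    ∀ᶠ y in 𝓝 x₀, y ∈ sat G S ↔ F y = 0 := by
  obtain ⟨T⟩ := D.exists_tslice
  have h1 : ContinuousAt T.r x₀ := T.cont.continuousAt (T.isOpen.mem_nhds T.mem)
  have h2 : Tendsto T.r (𝓝 x₀) (𝓝 x₀) := by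
    simpa [ContinuousAt, T.r_fix x₀ T.mem D.mem_S] using h1
  filter_upwards [T.isOpen.mem_nhds T.mem, h2.eventually hb, hU] with y hy h3 hyU
  constructor
  · rintro ⟨g, hg⟩
    simpa using hF g⁻¹ _ (hS _ hg).1 (hS _ hg).2
  · intro h0
    obtain ⟨g, hg⟩ := T.r_orb y hy
    exact ⟨g, hg ▸ h3 (hg ▸ hF g y hyU h0) (T.r_mem y hy)⟩

end loc

section seq

variable {G : Type*} [Group G] {C : Type*} [NormedAddCommGroup C] [NormedSpace ℝ C] [MulAction G C]

theorem SeqCpt.sat {S : Set C} (h : SeqCpt G S) : SeqCpt G (sat G S) := by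
  intro x hx
  choose k hk using hx
  obtain ⟨φ, g, a, h1, h2, h3⟩ := h (fun n => k n • x n) hk
  exact ⟨φ, fun n => g n * k (φ n), a, h1, subset_sat S h2, by simpa only [mul_smul] using h3⟩

/-- Ultrafilter form of compactness modulo gauge. -/
theorem seqCpt_of_ultra {S : Set C}
    (h : ∀ (x : ℕ → C) (𝒰 : Ultrafilter ℕ), (∀ n, x n ∈ S) → (𝒰 : Filter ℕ) ≤ atTop →
      ∃ (g : ℕ → G) (a : C), a ∈ S ∧ Tendsto (fun n => g n • x n) 𝒰 (𝓝 a)) : SeqCpt G S := by
  intro x hx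
  obtain ⟨g, a, ha, hl⟩ := h x (Ultrafilter.of atTop) hx (Ultrafilter.of_le _)
  have hc : MapClusterPt a atTop fun n => g n • x n :=
    (hl.mapClusterPt).mono (Ultrafilter.of_le _)
  obtain ⟨φ, hφ, hl'⟩ := hc.tendsto_subseq
  exact ⟨φ, g ∘ φ, a, hφ, ha, hl'⟩

end seq

section groupoid

/-- Counting isomorphism classes of solutions that live over varying objects.  `b x` is the
isomorphism class of the object under `x`; only finitely many classes occur. -/
theorem card_quot_eq_sum {X O : Type*} (s : Setoid X) (b : X → O) (hb : ∀ x y, s x y → b x = b y)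
    (R : Finset O) (hR : ∀ x, b x ∈ R)
    (hf : ∀ o ∈ R, Finite (Quotient (s.comap (Subtype.val : {x // b x = o} → X)))) :
    Finite (Quotient s) ∧ Nat.card (Quotient s) =
      ∑ o ∈ R, Nat.card (Quotient (s.comap (Subtype.val : {x // b x = o} → X))) := by
  let e : (Σ o : R, Quotient (s.comap (Subtype.val : {x // b x = o} → X))) ≃ Quotient s :=
    Equiv.ofBijective
      (fun q => Quotient.lift (s := s.comap Subtype.val) (fun x => Quotient.mk s x.1)
        (fun _ _ h => Quotient.sound h) q.2)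
      ⟨by
        rintro ⟨⟨o, ho⟩, p⟩ ⟨⟨o', ho'⟩, q⟩
        obtain ⟨x, rfl⟩ := Quotient.mk_surjective p
        obtain ⟨y, rfl⟩ := Quotient.mk_surjective q
        intro h
        have h1 : s x.1 y.1 := Quotient.exact h
        have h2 : o = o' := x.2.symm.trans ((hb _ _ h1).trans y.2)
        subst h2
        exact congrArg _ (Quotient.sound h1),
       by
        intro q
        obtain ⟨x, rfl⟩ := Quotient.mk_surjective q
        exact ⟨⟨⟨b x, hR x⟩, Quotient.mk _ ⟨x, rfl⟩⟩, rfl⟩⟩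
  have : ∀ o : R, Finite (Quotient (s.comap (Subtype.val : {x // b x = o} → X))) :=
    fun o => hf o o.2
  refine ⟨Finite.of_equiv _ e, ?_⟩
  rw [← Nat.card_congr e, Nat.card_sigma, ← Finset.sum_coe_sort R]

end groupoid

end Crest.Agent.X212.Slc61
end
end

-- ▼ part X212/Mod61/Prob

/-! Abstract moduli problems over varying modules: smooth configurations with Banach models.
Data `Prob`, axioms `Prob.Ax`, and the local genericity statements needed by `Fin93`. -/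

set_option autoImplicit false
set_option linter.unusedSectionVars false

noncomputable section

open Set Filter Topology Function
open scoped ContDiff

namespace Crest.Agent.X212.Mod61

open Slc61

/-- A moduli problem with perturbation terms indexed by `W`. -/
structure Prob (W : Type) : Type 1 where
  /-- modules (with a reference connection) -/
  O : Type
  /-- smooth configurations over a module -/
  S : O → Type
  eqv : Setoid (Σ o, S o)
  C : O → Type
  E : O → Type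
  L : O → Type
  H : O → Type
  G : O → Type
  [nC : ∀ o, NormedAddCommGroup (C o)]
  [sC : ∀ o, NormedSpace ℝ (C o)]
  [cC : ∀ o, CompleteSpace (C o)]
  [nE : ∀ o, NormedAddCommGroup (E o)]
  [sE : ∀ o, NormedSpace ℝ (E o)]
  [cE : ∀ o, CompleteSpace (E o)]
  [nL : ∀ o, NormedAddCommGroup (L o)]
  [sL : ∀ o, NormedSpace ℝ (L o)]
  [cL : ∀ o, CompleteSpace (L o)]
  [nH : ∀ o, NormedAddCommGroup (H o)]
  [sH : ∀ o, NormedSpace ℝ (H o)]
  [cH : ∀ o, CompleteSpace (H o)]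
  [gG : ∀ o, Group (G o)]
  [aG : ∀ o, MulAction (G o) (C o)]
  /-- the point of the Banach model -/
  pt : ∀ {o}, S o → C o
  /-- open invariant domain -/
  U : ∀ o, Set (C o)
  F0 : ∀ o, C o → E o
  τ : ∀ o, W → C o → E o
  /-- the stratum (an open condition, e.g. `Φ ≠ 0` on every component, level, parameter range) -/
  In : (Σ o, S o) → Prop
  /-- the index -/
  n : ℤ

attribute [instance] Prob.nC Prob.sC Prob.cC Prob.nE Prob.sE Prob.cE Prob.nL Prob.sL Prob.cL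
  Prob.nH Prob.sH Prob.cH Prob.gG Prob.aG

namespace Prob

variable {W : Type} (Q : Prob W)

/-- all smooth configurations -/
abbrev X : Type := Σ o, Q.S o

/-- the perturbed map -/
def F (o : Q.O) (q : W →₀ ℝ) (v : Q.C o) : Q.E o := Q.F0 o v + q.sum fun w c => c • Q.τ o w v

def Sol (q : W →₀ ℝ) (x : Q.X) : Prop := Q.In x ∧ Q.F x.1 q (Q.pt x.2) = 0

def Reg (q : W →₀ ℝ) (x : Q.X) : Prop := Surjective (fderiv ℝ (Q.F x.1 q) (Q.pt x.2))

def OntoAt (o : Q.O) (q : W →₀ ℝ) (v : Q.C o) (J : Finset W) : Prop :=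
  ∀ f, ∃ (u : Q.C o) (c : J → ℝ), fderiv ℝ (Q.F o q) v u + ∑ w : J, c w • Q.τ o w v = f

/-- the universal linearisation with the terms in `J` is onto -/
def Onto (q : W →₀ ℝ) (x : Q.X) (J : Finset W) : Prop := Q.OntoAt x.1 q (Q.pt x.2) J

/-- configurations equivalent to one over the module of `x₀` whose point lies in `N` -/
def tube (x₀ : Q.X) (N : Set (Q.C x₀.1)) : Set Q.X :=
  {x | ∃ y : Q.S x₀.1, Q.pt y ∈ N ∧ Q.eqv x ⟨x₀.1, y⟩}

/-- configurations equivalent to one near `x₀` -/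
def Near (x₀ : Q.X) : Filter Q.X := (𝓝 (Q.pt x₀.2)).lift' (Q.tube x₀)

/-- `T` intertwines the two problems near `v` through `ρ`. -/
def Tw {o o' : Q.O} (T : Q.C o → Q.C o') (v : Q.C o) : Prop :=
  ∃ (A : Q.C o →L[ℝ] Q.C o') (ρ : Q.E o ≃L[ℝ] Q.E o'), HasFDerivAt T A v ∧ Surjective A ∧
    ∀ᶠ u in 𝓝 v, Q.F0 o' (T u) = ρ (Q.F0 o u) ∧ ∀ w, Q.τ o' w (T u) = ρ (Q.τ o w u)

/-- The axioms, for the perturbations `q` in `Adm`. -/
structure Ax (Adm : (W →₀ ℝ) → Prop) : Prop where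
  isOpen : ∀ o, IsOpen (Q.U o)
  inv : ∀ o, Inv (Q.G o) (Q.U o)
  sm0 : ∀ o, ContDiffOn ℝ ∞ (Q.F0 o) (Q.U o)
  smτ : ∀ o w, ContDiffOn ℝ ∞ (Q.τ o w) (Q.U o)
  mem : ∀ x, Q.In x → Q.pt x.2 ∈ Q.U x.1
  in_eqv : ∀ x y, Q.eqv x y → Q.In x → Q.In y
  cont : ∀ o, ContinuousConstSMul (Q.G o) (Q.C o)
  act : ∀ o (g : Q.G o), ∀ v ∈ Q.U o, Q.Tw (fun u => g • u) v
  orb : ∀ o (y y' : Q.S o), Q.In ⟨o, y⟩ → Q.In ⟨o, y'⟩ →
    (Q.eqv ⟨o, y⟩ ⟨o, y'⟩ ↔ ∃ g : Q.G o, g • Q.pt y = Q.pt y')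
  tr : ∀ x x' : Q.X, Q.In x → Q.eqv x x' → ∃ T : Q.C x.1 → Q.C x'.1, T (Q.pt x.2) = Q.pt x'.2 ∧
    Q.Tw T (Q.pt x.2) ∧
    ∀ y : Q.S x.1, ∃ y' : Q.S x'.1, Q.pt y' = T (Q.pt y) ∧ Q.eqv ⟨x.1, y⟩ ⟨x'.1, y'⟩
  slc : ∀ q x, Adm q → Q.Sol q x →
    ∃ D : SliceData (Q.G x.1) (Q.L x.1) (Q.H x.1) (Q.pt x.2), ContDiff ℝ ∞ D.γ ∧
      Fred93.Fr ((fderiv ℝ (Q.F x.1 q) (Q.pt x.2)).prod D.σ) Q.n ∧
      ∀ᶠ v in 𝓝 (Q.pt x.2), Q.F x.1 q v = 0 → D.γ v = 0 →
        ∃ y : Q.S x.1, Q.pt y = v ∧ Q.In ⟨x.1, y⟩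
  cl : ∀ o, ClosedOrb (Q.G o) (sat (Q.G o) (Q.pt '' {y | Q.In ⟨o, y⟩}))

theorem tube_mono (x₀ : Q.X) : Monotone (Q.tube x₀) := by
  rintro N N' h x ⟨y, h1, h2⟩
  exact ⟨y, h h1, h2⟩

theorem mem_near {x₀ : Q.X} {A : Set Q.X} :
    A ∈ Q.Near x₀ ↔ ∃ N ∈ 𝓝 (Q.pt x₀.2), Q.tube x₀ N ⊆ A :=
  mem_lift'_sets (Q.tube_mono x₀)

theorem tube_mem {x₀ : Q.X} {N : Set (Q.C x₀.1)} (h : N ∈ 𝓝 (Q.pt x₀.2)) :
    Q.tube x₀ N ∈ Q.Near x₀ := mem_lift' h

/-- The form in which compactness theorems prove convergence. -/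
theorem tendsto_near {ι : Type*} {l : Filter ι} {u : ι → Q.X} {x₀ : Q.X} :
    Tendsto u l (Q.Near x₀) ↔ ∀ N ∈ 𝓝 (Q.pt x₀.2), ∀ᶠ i in l,
      ∃ y : Q.S x₀.1, Q.pt y ∈ N ∧ Q.eqv (u i) ⟨x₀.1, y⟩ :=
  tendsto_lift'

theorem tendsto_near_of {ι : Type*} {l : Filter ι} {u : ι → Q.X} {x₀ : Q.X} (y : ι → Q.S x₀.1)
    (h1 : Tendsto (fun i => Q.pt (y i)) l (𝓝 (Q.pt x₀.2)))
    (h2 : ∀ᶠ i in l, Q.eqv (u i) ⟨x₀.1, y i⟩) : Tendsto u l (Q.Near x₀) :=
  Q.tendsto_near.2 fun _ hN => ((h1.eventually hN).and h2).mono fun i hi => ⟨y i, hi⟩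

theorem F_add (o : Q.O) (q q' : W →₀ ℝ) (v : Q.C o) :
    Q.F o (q + q') v = Q.F o q v + q'.sum fun w c => c • Q.τ o w v := by
  rw [F, F, Finsupp.sum_add_index' (h := fun w c => c • Q.τ o w v) (fun _ => zero_smul _ _)
    (fun _ _ _ => add_smul _ _ _), add_assoc]

/-- the universal map of the stage `J` over `q` -/
def Ψ (o : Q.O) (q : W →₀ ℝ) (J : Finset W) (z : Q.C o × (J → ℝ)) : Q.E o :=
  Q.F o q z.1 + ∑ w : J, z.2 w • Q.τ o w z.1

theorem Ψ_eq (o : Q.O) (q : W →₀ ℝ) (J : Finset W) (v : Q.C o) (c : J → ℝ) :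
    Q.Ψ o q J (v, c) = Q.F o (q + Fin93.ext0 J c) v := by
  rw [F_add, Fin93.ext0_sum, Ψ]

theorem Tw.F {o o' : Q.O} {T : Q.C o → Q.C o'} {v : Q.C o} (h : Q.Tw T v) :
    ∃ (A : Q.C o →L[ℝ] Q.C o') (ρ : Q.E o ≃L[ℝ] Q.E o'), HasFDerivAt T A v ∧ Surjective A ∧
      (∀ q, ∀ᶠ u in 𝓝 v, Q.F o' q (T u) = ρ (Q.F o q u)) ∧
      ∀ w, Q.τ o' w (T v) = ρ (Q.τ o w v) := by
  obtain ⟨A, ρ, h1, h2, h3⟩ := h
  refine ⟨A, ρ, h1, h2, fun q => h3.mono fun u hu => ?_, h3.self_of_nhds.2⟩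
  simp only [Prob.F, hu.1, hu.2, map_add, Finsupp.sum, map_sum, map_smul]

namespace Ax

variable {Q} {Adm : (W →₀ ℝ) → Prop} (h : Q.Ax Adm)
include h

theorem smF (o : Q.O) (q : W →₀ ℝ) : ContDiffOn ℝ ∞ (Q.F o q) (Q.U o) :=
  (h.sm0 o).add (ContDiffOn.sum fun w _ => (h.smτ o w).const_smul (q w))

theorem smΨ (o : Q.O) (q : W →₀ ℝ) (J : Finset W) :
    ContDiffOn ℝ ∞ (Q.Ψ o q J) (Q.U o ×ˢ univ) :=
  ((h.smF o q).comp contDiffOn_fst fun _ hq => hq.1).add (ContDiffOn.sum fun w _ =>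
    (((contDiff_apply ℝ ℝ w).comp contDiff_snd).contDiffOn).smul
      ((h.smτ o w).comp contDiffOn_fst fun _ hq => hq.1))

theorem strictF {o : Q.O} (q : W →₀ ℝ) {v : Q.C o} (hv : v ∈ Q.U o) :
    HasStrictFDerivAt (Q.F o q) (fderiv ℝ (Q.F o q) v) v :=
  ((h.smF o q).contDiffAt ((h.isOpen o).mem_nhds hv)).hasStrictFDerivAt (by simp)

theorem diffΨ {o : Q.O} (q : W →₀ ℝ) (J : Finset W) {v : Q.C o} (hv : v ∈ Q.U o) (c : J → ℝ) :
    DifferentiableAt ℝ (Q.Ψ o q J) (v, c) :=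
  ((h.smΨ o q J).contDiffAt (((h.isOpen o).prod isOpen_univ).mem_nhds ⟨hv, mem_univ _⟩)
    ).differentiableAt (by simp)

theorem dE_Ψ {o : Q.O} (q : W →₀ ℝ) (J : Finset W) {v : Q.C o} (hv : v ∈ Q.U o) (c : J → ℝ) :
    Sard93.dE (Q.Ψ o q J) (v, c) = fderiv ℝ (Q.F o (q + Fin93.ext0 J c)) v := by
  rw [Sard93.dE_eq_fderiv (h.diffΨ q J hv c)]
  simp only [Q.Ψ_eq]

theorem fderiv_Ψ {o : Q.O} (q : W →₀ ℝ) (J : Finset W) {v : Q.C o} (hv : v ∈ Q.U o)
    (c : J → ℝ) (u : Q.C o) (c' : J → ℝ) : fderiv ℝ (Q.Ψ o q J) (v, c) (u, c') =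
      fderiv ℝ (Q.F o (q + Fin93.ext0 J c)) v u + ∑ w : J, c' w • Q.τ o w v := by
  have h1 : ((u, c') : Q.C o × (J → ℝ)) = (u, 0) + (0, c') := by simp
  rw [h1, map_add, ← Sard93.dE_apply, h.dE_Ψ q J hv]
  congr 1
  let B : (J → ℝ) →L[ℝ] Q.E o :=
    ∑ w : J, (ContinuousLinearMap.proj (R := ℝ) (φ := fun _ : J => ℝ) w).smulRight (Q.τ o w v)
  have hB : ∀ d, B d = ∑ w : J, d w • Q.τ o w v := fun d => by
    simp [B]
  have h2 : HasFDerivAt (fun d : J → ℝ => Q.Ψ o q J (v, d)) B c := by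
    have : (fun d : J → ℝ => Q.Ψ o q J (v, d)) = fun d => Q.F o q v + B d := by
      funext d
      rw [hB, Ψ]
    rw [this]
    exact B.hasFDerivAt.const_add _
  have h3 := (h.diffΨ q J hv c).hasFDerivAt.comp c (hasFDerivAt_prodMk_right v c)
  rw [← hB, ← h3.unique h2]
  rfl

theorem surj_Ψ {o : Q.O} (q : W →₀ ℝ) (J : Finset W) {v : Q.C o} (hv : v ∈ Q.U o) (c : J → ℝ) :
    Surjective (fderiv ℝ (Q.Ψ o q J) (v, c)) ↔ Q.OntoAt o (q + Fin93.ext0 J c) v J := by
  refine forall_congr' fun f => ⟨?_, ?_⟩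
  · rintro ⟨⟨u, c'⟩, rfl⟩
    exact ⟨u, c', (h.fderiv_Ψ q J hv c u c').symm⟩
  · rintro ⟨u, c', rfl⟩
    exact ⟨(u, c'), h.fderiv_Ψ q J hv c u c'⟩

/-- transport of the derivative along an intertwiner -/
theorem tw_deriv {o o' : Q.O} {T : Q.C o → Q.C o'} {v : Q.C o} (hT : Q.Tw T v) (hv : v ∈ Q.U o)
    (hv' : T v ∈ Q.U o') : ∃ (A : Q.C o →L[ℝ] Q.C o') (ρ : Q.E o ≃L[ℝ] Q.E o'), Surjective A ∧
      (∀ q u, fderiv ℝ (Q.F o' q) (T v) (A u) = ρ (fderiv ℝ (Q.F o q) v u)) ∧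
      (∀ q, Q.F o' q (T v) = ρ (Q.F o q v)) ∧ ∀ w, Q.τ o' w (T v) = ρ (Q.τ o w v) := by
  obtain ⟨A, ρ, h1, h2, h3, h4⟩ := hT.F
  refine ⟨A, ρ, h2, fun q u => ?_, fun q => (h3 q).self_of_nhds, h4⟩
  have h5 := (h.strictF q hv').hasFDerivAt.comp v h1
  have h6 : HasFDerivAt (Q.F o' q ∘ T) ((ρ : Q.E o →L[ℝ] Q.E o').comp (fderiv ℝ (Q.F o q) v)) v :=
    ((ρ : Q.E o →L[ℝ] Q.E o').hasFDerivAt.comp v (h.strictF q hv).hasFDerivAt
      ).congr_of_eventuallyEq (h3 q)
  exact congrArg (fun B : Q.C o →L[ℝ] Q.E o' => B u) (h5.unique h6)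

theorem tw_onto {o o' : Q.O} {T : Q.C o → Q.C o'} {v : Q.C o} (hT : Q.Tw T v) (hv : v ∈ Q.U o)
    (hv' : T v ∈ Q.U o') {q : W →₀ ℝ} {J : Finset W} (ho : Q.OntoAt o' q (T v) J) :
    Q.OntoAt o q v J := by
  obtain ⟨A, ρ, h1, h2, -, h4⟩ := h.tw_deriv hT hv hv'
  intro f
  obtain ⟨u, c, hu⟩ := ho (ρ f)
  obtain ⟨u, rfl⟩ := h1 u
  refine ⟨u, c, ρ.injective ?_⟩
  rw [← hu, h2]
  simp only [map_add, map_sum, map_smul, h4]

theorem tw_surj {o o' : Q.O} {T : Q.C o → Q.C o'} {v : Q.C o} (hT : Q.Tw T v) (hv : v ∈ Q.U o)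
    (hv' : T v ∈ Q.U o') {q : W →₀ ℝ} (ho : Surjective (fderiv ℝ (Q.F o' q) (T v))) :
    Surjective (fderiv ℝ (Q.F o q) v) := by
  obtain ⟨A, ρ, h1, h2, -, -⟩ := h.tw_deriv hT hv hv'
  intro f
  obtain ⟨u, hu⟩ := ho (ρ f)
  obtain ⟨u, rfl⟩ := h1 u
  exact ⟨u, ρ.injective (by rw [← hu, h2])⟩

theorem F_smul {o : Q.O} (q : W →₀ ℝ) (g : Q.G o) {v : Q.C o} (hv : v ∈ Q.U o)
    (h0 : Q.F o q v = 0) : Q.F o q (g • v) = 0 := by
  obtain ⟨A, ρ, -, -, h3, -⟩ := h.tw_deriv (h.act o g v hv) hv (h.inv o g v hv)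
  rw [h3, h0, map_zero]

theorem sol_eqv {q : W →₀ ℝ} {x y : Q.X} (e : Q.eqv x y) (hx : Q.Sol q x) : Q.Sol q y := by
  obtain ⟨T, h1, h2, -⟩ := h.tr x y hx.1 e
  have hy := h.in_eqv x y e hx.1
  obtain ⟨A, ρ, -, -, h3, -⟩ := h.tw_deriv h2 (h.mem x hx.1) (h1 ▸ h.mem y hy)
  exact ⟨hy, by rw [← h1, h3, hx.2, map_zero]⟩

theorem reg_eqv {q : W →₀ ℝ} {x y : Q.X} (e : Q.eqv x y) (hx : Q.In x) (hy : Q.Reg q y) :
    Q.Reg q x := by
  obtain ⟨T, h1, h2, -⟩ := h.tr x y hx e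
  exact h.tw_surj h2 (h.mem x hx) (h1 ▸ h.mem y (h.in_eqv x y e hx)) (h1 ▸ hy)

theorem onto_eqv {q : W →₀ ℝ} {x y : Q.X} {J : Finset W} (e : Q.eqv x y) (hx : Q.In x)
    (hy : Q.Onto q y J) : Q.Onto q x J := by
  obtain ⟨T, h1, h2, -⟩ := h.tr x y hx e
  exact h.tw_onto h2 (h.mem x hx) (h1 ▸ h.mem y (h.in_eqv x y e hx)) (h1 ▸ hy)

omit h in
theorem onto_mono {q : W →₀ ℝ} {x : Q.X} {J J' : Finset W} (hJ : J ≤ J') (ho : Q.Onto q x J) :
    Q.Onto q x J' := by
  intro f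
  obtain ⟨u, c, rfl⟩ := ho f
  refine ⟨u, fun w => Fin93.ext0 J c w, ?_⟩
  rw [← Fin93.ext0_sum J' _ fun w => Q.τ x.1 w (Q.pt x.2),
    ← Fin93.ext0_sum J _ fun w => Q.τ x.1 w (Q.pt x.2),
    Fin93.ext0_restrict ((Fin93.ext0_support J c).trans hJ)]

theorem contAt_fderiv_Ψ {o : Q.O} (q : W →₀ ℝ) (J : Finset W) {v : Q.C o} (hv : v ∈ Q.U o)
    (c : J → ℝ) : ContinuousAt (fderiv ℝ (Q.Ψ o q J)) (v, c) :=
  ((h.smΨ o q J).contDiffAt (((h.isOpen o).prod isOpen_univ).mem_nhds ⟨hv, mem_univ _⟩)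
    ).continuousAt_fderiv (by simp)

/-- `Onto` is open at fixed `q`. -/
theorem onto_open {q : W →₀ ℝ} {x₀ : Q.X} {J : Finset W} (hx : Q.In x₀) (ho : Q.Onto q x₀ J) :
    ∀ᶠ x in Q.Near x₀, Q.In x → Q.Onto q x J := by
  have e0 : q + Fin93.ext0 J 0 = q := by
    ext w
    by_cases hw : w ∈ J
    · simpa using Fin93.ext0_mem (0 : J → ℝ) ⟨w, hw⟩
    · simpa using Fin93.ext0_not_mem (0 : J → ℝ) hw
  have h1 : Surjective (fderiv ℝ (Q.Ψ x₀.1 q J) (Q.pt x₀.2, 0)) :=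
    (h.surj_Ψ q J (h.mem x₀ hx) 0).2 (by rw [e0]; exact ho)
  have h2 : ContinuousAt (fun v => fderiv ℝ (Q.Ψ x₀.1 q J) (v, 0)) (Q.pt x₀.2) :=
    ContinuousAt.comp (f := fun v => (v, (0 : J → ℝ))) (h.contAt_fderiv_Ψ q J (h.mem x₀ hx) 0)
      (by fun_prop)
  filter_upwards [Q.tube_mem (h2.eventually (Sard93.isOpen_surj.mem_nhds h1))] with x hx' hin
  obtain ⟨y, h3, h4⟩ := hx'
  refine h.onto_eqv h4 hin ?_
  have h5 := (h.surj_Ψ q J (h.mem _ (h.in_eqv _ _ h4 hin)) 0).1 h3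
  rwa [e0] at h5

/-- regularity is open -/
theorem reg_open {q : W →₀ ℝ} {J : Finset W} {p₀ : J → ℝ} {x₀ : Q.X} (hx : Q.In x₀)
    (hr : Q.Reg (q + Fin93.ext0 J p₀) x₀) :
    ∀ᶠ z in 𝓝 p₀ ×ˢ Q.Near x₀, Q.In z.2 → Q.Reg (q + Fin93.ext0 J z.1) z.2 := by
  have h1 : Surjective (Sard93.dE (Q.Ψ x₀.1 q J) (Q.pt x₀.2, p₀)) := by
    rw [h.dE_Ψ q J (h.mem x₀ hx)]
    exact hr
  have h2 : ContinuousAt (Sard93.dE (Q.Ψ x₀.1 q J)) (Q.pt x₀.2, p₀) :=
    (h.contAt_fderiv_Ψ q J (h.mem x₀ hx) p₀).clm_comp continuousAt_const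
  obtain ⟨N, hN, N', hN', hsub⟩ :=
    mem_nhds_prod_iff.1 (h2.eventually (Sard93.isOpen_surj.mem_nhds h1))
  filter_upwards [prod_mem_prod hN' (Q.tube_mem hN)] with z hz hin
  obtain ⟨y, h3, h4⟩ := hz.2
  refine h.reg_eqv h4 hin ?_
  have h5 : Surjective (Sard93.dE (Q.Ψ x₀.1 q J) (Q.pt y, z.1)) := hsub (mk_mem_prod h3 hz.1)
  rwa [h.dE_Ψ q J (h.mem _ (h.in_eqv _ _ h4 hin))] at h5

/-- local Sard -/
theorem loc {q : W →₀ ℝ} {J : Finset W} {p₀ : J → ℝ} {x₀ : Q.X} (ha : Adm (q + Fin93.ext0 J p₀))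
    (hx : Q.Sol (q + Fin93.ext0 J p₀) x₀) (ho : Q.Onto (q + Fin93.ext0 J p₀) x₀ J) :
    ∃ A ∈ 𝓝 p₀ ×ˢ Q.Near x₀, ∀ᶠ p in residual (J → ℝ), ∀ x, (p, x) ∈ A →
      Q.Sol (q + Fin93.ext0 J p) x → Q.Reg (q + Fin93.ext0 J p) x := by
  obtain ⟨D, h1, h2, -⟩ := h.slc _ x₀ ha hx
  have hU := h.mem x₀ hx.1
  obtain ⟨N, hN, hres⟩ := generic_loc (G := Q.G x₀.1) ((h.isOpen x₀.1).prod isOpen_univ)
    (h.smΨ x₀.1 q J) (Zu := {z | z.1 ∈ Q.U x₀.1 ∧ Q.Ψ x₀.1 q J z = 0})
    (fun z hz => ⟨hz.1, mem_univ _⟩) (fun z hz => hz.2)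
    (fun g v p hz => ⟨h.inv _ g v hz.1, by
      have h3 := hz.2
      rw [Q.Ψ_eq] at h3 ⊢
      exact h.F_smul _ g hz.1 h3⟩)
    (fun g v p hz hs => by
      rw [h.dE_Ψ q J (h.inv _ g v hz.1)] at hs
      rw [h.dE_Ψ q J hz.1]
      exact h.tw_surj (h.act _ g v hz.1) hz.1 (h.inv _ g v hz.1) hs)
    (z := (Q.pt x₀.2, p₀)) ⟨hU, by rw [Q.Ψ_eq]; exact hx.2⟩ D h1
    (by rw [h.dE_Ψ q J hU]; exact h2.1) ((h.surj_Ψ q J hU p₀).2 ho)
  obtain ⟨N1, hN1, N2, hN2, hsub⟩ := mem_nhds_prod_iff.1 hN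
  refine ⟨_, prod_mem_prod hN2 (Q.tube_mem hN1), ?_⟩
  filter_upwards [hres] with p hp x hxA hs
  obtain ⟨y, h3, h4⟩ := hxA.2
  have h5 := h.sol_eqv h4 hs
  have h6 := hp (Q.pt y) (hsub (mk_mem_prod h3 hxA.1)) ⟨h.mem _ h5.1, by
    rw [Q.Ψ_eq]; exact h5.2⟩
  rw [h.dE_Ψ q J (h.mem _ h5.1)] at h6
  exact h.reg_eqv h4 hs.1 h6

end Ax

end Prob

end Crest.Agent.X212.Mod61
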